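import Crest.Agent.R269.I.Loc

/-!
# Row 269, block I2: gluing a mollified weight (owner helper41)
-/

set_option autoImplicit false
set_option linter.unusedSectionVars false
set_option linter.unusedVariables false

noncomputable section

namespace Crest.Agent.R269

open Set Metric Filter Topology MeasureTheory Matrix
open Crest.AlgGeometry.ProjEmb
open scoped InnerProductSpace ContDiff ComplexOrder

namespace RDom

variable {n : ℕ} {D : RDom n}

/-- `VB.add_smooth` with `t ρ - C` (`SmOn.pt`, `VB.classical`). -/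
theorem VBM.add_exh {φ ρ : D.M → ℝ} (h : D.VBM φ univ fun _ => 0) (hρ : D.Exh ρ) {t : ℝ} (ht : 0 ≤ t) (C : ℝ) :
    D.VBM (fun x => φ x + (t * ρ x - C)) univ fun _ => 0 := by
  intro e he
  have h1 := (h e he).add_smooth (ψ := fun w => t * (ρ ∘ e.symm) w - C) (c' := fun _ => 0) fun w hw => by
    have h2 : ContDiffAt ℝ 2 (ρ ∘ e.symm) w := by
      have := hρ.sm.pt he (e.map_target hw.1) univ_mem
      rw [he.pi_symm hw.1] at this
      exact this.of_le two_le_infty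
    refine ⟨(contDiffAt_const.mul h2).sub contDiffAt_const, fun v => ?_⟩
    simp only [levi_sub (contDiffAt_const.mul h2) contDiffAt_const, levi_const_mul h2, levi_const, sub_zero, ← Finset.mul_sum]
    exact mul_nonneg ht ((hρ.psh e he).classical hw h2 v)
  exact h1.mono subset_rfl fun _ => by simp

/-- From linearly independent families to all families (`bellman_iff` with `c = 0`, `bellman_of_psd`, `qf_leviM`). -/
theorem _root_.Crest.Agent.R269.vb_of_li (hn : 1 ≤ n) {Φ : Cn n → ℝ} {w : Cn n} (hΦ : ContDiffAt ℝ 2 Φ w)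
    (h : ∀ v : Fin n → Cn n, LinearIndependent ℂ v → 0 ≤ ∑ j, levi Φ w (v j)) : VB Φ {w} fun _ => 0 := by
  have h1 := (bellman_iff hn (leviM_herm hΦ) le_rfl).1 fun v hv => by
    simp only [qf_leviM hΦ, zero_mul]
    exact ⟨h v hv, pow_nonneg (div_nonneg (h v hv) (Nat.cast_nonneg _)) _⟩
  refine vb_of_classical fun w' hw' => ?_
  rw [mem_singleton_iff.1 hw']
  exact ⟨hΦ, fun v => by simpa only [qf_leviM hΦ] using (bellman_of_psd hn h1.1 h1.2 v).1⟩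

/-- `R₁ ≥ ρ` on `K₁`, `C' = 2B + 1 + t R₁`, `t₁ ≥ R₁` with `t t₁ ≥ C' + 2B + 1`, `K = {ρ ≤ t₁ + 1}`, `Φ = Φ k` from `Moll` for `K`,
`φ' = φ + (t ρ - C')`, `ψ x = if ρ x ≤ t₁ + 1/2 then max (Φ x) (φ' x) else φ' x`.  On the open set `{t₁ < ρ}` `ψ = φ'`,
on the open set `{ρ < t₁ + 1/2}` `ψ = max Φ φ'`; on `K₁` `ψ = Φ`. -/
theorem glue (hn : 1 ≤ n) (hM : Moll n) {ρ φ p : D.M → ℝ} (hρ : D.Exh ρ) (hW : D.Wt φ) (hφ : D.VBM φ univ fun _ => 0)
    (hp : Continuous p) {B t : ℝ} (hB : ∀ x, |φ x - p x| ≤ B) (ht : 0 < t) {V K₁ : Set D.M} (hV : IsOpen V)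
    {c : (Fin n → Cn n) → ℝ} (hc : D.VBM φ V c) (hK : IsCompact K₁) (hKV : K₁ ⊆ V) :
    ∃ ψ Φ : D.M → ℝ, D.Wt ψ ∧ D.VBM ψ univ (fun _ => 0) ∧ (∃ C, ∀ x, ψ x ≤ p x + t * ρ x + C) ∧ EqOn ψ Φ K₁ ∧
      ∀ e, D.IsCh e → ∀ x ∈ K₁ ∩ e.source, ContDiffAt ℝ 2 (Φ ∘ e.symm) (D.π x) ∧
        ∀ v : Fin n → Cn n, LinearIndependent ℂ v → c v ≤ ∑ j, levi (Φ ∘ e.symm) (D.π x) (v j) := by
  have hρc : Continuous ρ := continuous_iff_continuousAt.2 fun x => hρ.sm.continuousAt univ_mem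
  obtain ⟨R₁, hR₁⟩ := hK.bddAbove_image hρc.continuousOn
  have hR₁' : ∀ x ∈ K₁, ρ x ≤ R₁ := fun x hx => hR₁ (mem_image_of_mem _ hx)
  obtain ⟨C', hC'⟩ : ∃ C', C' = 2 * B + 1 + t * R₁ := ⟨_, rfl⟩
  obtain ⟨t₁, ht₁, ht₂⟩ : ∃ t₁, R₁ ≤ t₁ ∧ C' + 2 * B + 1 ≤ t * t₁ :=
    ⟨max R₁ ((C' + 2 * B + 1) / t), le_max_left _ _, by
      rw [← div_le_iff₀' ht]
      exact le_max_right _ _⟩
  have hKc := hρ.cpt (t₁ + 1)
  obtain ⟨R₀, hR₀⟩ := hKc.bddBelow_image hρc.continuousOn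
  obtain ⟨W, hWo, hKW, Φ, hsm, hb, -, -, -, hlev⟩ := hM D φ hW _ hKc
  have hK₁ : K₁ ⊆ {x | ρ x ≤ t₁ + 1} := fun x hx => (hR₁' x hx).trans (by linarith)
  obtain ⟨k, hk₁, hk₂, hk₃⟩ := ((hb p B hp hB).and ((hlev univ _ isOpen_univ hφ _ (subset_inter (subset_univ _) hKW) hKc).and
    (hlev V c hV hc K₁ (subset_inter hKV (hK₁.trans hKW)) hK))).exists
  have hφ' := hφ.add_exh hρ ht.le C'
  have hW' := hW.add_cont (ψ := fun x => t * ρ x - C') (by fun_prop)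
  set φ' : D.M → ℝ := fun x => φ x + (t * ρ x - C') with hφ'def
  let ψ : D.M → ℝ := fun x => if ρ x ≤ t₁ + 1 / 2 then max (Φ k x) (φ' x) else φ' x
  have hC2 : ∀ e, D.IsCh e → ∀ x ∈ e.source, ρ x ≤ t₁ + 1 → ContDiffAt ℝ 2 (Φ k ∘ e.symm) (D.π x) := fun e he x hx h =>
    ((hsm k).pt he hx (hWo.mem_nhds (hKW h))).of_le two_le_infty
  have hloc : ∀ x, ψ =ᶠ[𝓝 x] φ' ∨ (ρ x ≤ t₁ ∧ ψ =ᶠ[𝓝 x] fun y => max (Φ k y) (φ' y)) := fun x => by
    rcases lt_or_ge t₁ (ρ x) with h | h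
    · left
      filter_upwards [hρc.continuousAt.eventually (lt_mem_nhds h)] with y hy
      simp only [ψ]
      split_ifs with h1
      · refine max_eq_right ?_
        have h2 := (abs_le.1 (hk₁ y (show ρ y ≤ t₁ + 1 by linarith))).2
        have h3 := (abs_le.1 (hB y)).1
        simp only [hφ'def]
        nlinarith
      · rfl
    · refine Or.inr ⟨h, ?_⟩
      filter_upwards [hρc.continuousAt.eventually (gt_mem_nhds (show ρ x < t₁ + 1 / 2 by linarith))] with y hy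
      exact if_pos hy.le
  refine ⟨ψ, Φ k, ⟨fun x => ?_, fun x => ?_⟩, vbm_of_local fun x _ => ?_, ⟨|B - C'| + |B + 1 - t * R₀|, fun x => ?_⟩,
    fun x hx => ?_, fun e he x hx => ⟨hC2 e he x hx.2 (hK₁ hx.1), fun v hv => ?_⟩⟩
  · rcases hloc x with h | ⟨h0, h⟩
    · exact usc_congr (hW'.usc x) h
    · have h1 : ContinuousAt (Φ k) x := (hsm k).continuousAt (hWo.mem_nhds (hKW (show ρ x ≤ t₁ + 1 by linarith)))
      exact usc_congr (h1.upperSemicontinuousAt.sup (hW'.usc x)) h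
  · obtain ⟨B', hB'⟩ := hW'.lb x
    refine ⟨B', hB'.mono fun y hy => hy.trans ?_⟩
    simp only [ψ]
    split_ifs
    · exact le_max_right _ _
    · exact le_rfl
  · obtain ⟨e, he, hx⟩ := D.exists_ch x
    rcases hloc x with h | ⟨h0, h⟩
    · exact ⟨_, h.trans (he.ev_comp_pi hx _), hφ'.pt he hx trivial⟩
    · have h1 : ρ x ≤ t₁ + 1 := by linarith
      refine ⟨_, h.trans (he.ev_comp_pi hx _), (vb_of_li hn (hC2 e he x hx h1) fun v hv => ?_).max (hφ'.pt he hx trivial)⟩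
      rw [← he x hx]
      exact hk₂ e he x ⟨h1, hx⟩ v hv
  · have h1 : φ' x ≤ p x + t * ρ x + (|B - C'| + |B + 1 - t * R₀|) := by
      simp only [hφ'def]
      linarith [(abs_le.1 (hB x)).2, le_abs_self (B - C'), abs_nonneg (B + 1 - t * R₀)]
    simp only [ψ]
    split_ifs with h
    · refine max_le ?_ h1
      have h2 : ρ x ≤ t₁ + 1 := by linarith
      have h3 := mul_le_mul_of_nonneg_left (hR₀ (mem_image_of_mem ρ h2)) ht.le
      linarith [(abs_le.1 (hk₁ x h2)).2, le_abs_self (B + 1 - t * R₀), abs_nonneg (B - C')]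
    · exact h1
  · have h1 := hR₁' x hx
    simp only [ψ]
    rw [if_pos (by linarith), max_eq_left]
    simp only [hφ'def]
    nlinarith [(abs_le.1 (hk₁ x (hK₁ hx))).1, (abs_le.1 (hB x)).2]
  · rw [← he x hx.2]
    exact hk₃ e he x hx v hv

end RDom

end Crest.Agent.R269
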