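import Crest.Agent.R269.I.Pole

/-!
# Row 269, block I2: interpolation (owner helper41)
-/

set_option autoImplicit false
set_option linter.unusedSectionVars false
set_option linter.unusedVariables false

noncomputable section

namespace Crest.Agent.R269

open Set Metric Filter Topology MeasureTheory Matrix
open Crest.AlgGeometry.ProjEmb
open scoped InnerProductSpace ContDiff ComplexOrder

namespace RDom

variable {n : ℕ} {D : RDom n}

/-- The cut-off function. -/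
def _root_.Crest.Agent.R269.cut (T : Cn n →L[ℂ] Cn n) (x w : Cn n) : ℂ := (Real.smoothTransition (2 - 4 * ‖T (w - x)‖ ^ 2) : ℝ)

theorem cut_one {T : Cn n →L[ℂ] Cn n} {x w : Cn n} (h : ‖T (w - x)‖ ^ 2 ≤ 1 / 4) : cut T x w = 1 := by
  rw [cut, Real.smoothTransition.one_of_one_le (by linarith), Complex.ofReal_one]

theorem cut_zero {T : Cn n →L[ℂ] Cn n} {x w : Cn n} (h : 1 / 2 ≤ ‖T (w - x)‖ ^ 2) : cut T x w = 0 := by
  rw [cut, Real.smoothTransition.zero_of_nonpos (by linarith), Complex.ofReal_zero]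

theorem contDiff_cut (T : Cn n →L[ℂ] Cn n) (x : Cn n) : ContDiff ℝ ∞ (cut T x) := by
  have h1 : ContDiff ℝ ∞ fun w : Cn n => T (w - x) := (T.restrictScalars ℝ).contDiff.comp (contDiff_id.sub contDiff_const)
  exact Complex.ofRealCLM.contDiff.comp
    (Real.smoothTransition.contDiff.comp (contDiff_const.sub (contDiff_const.mul (h1.norm_sq ℂ))))

theorem interp_cut {e : OpenPartialHomeomorph D.M (Cn n)} (he : D.IsCh e) {K : Set (Cn n)} (hK : IsCompact K)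
    (hKe : K ⊆ e.target) (T : Cn n →L[ℂ] Cn n) (x : Cn n) (h : ∀ w, w ∉ K → 1 < ‖T (w - x)‖) :
    D.SmOn (D.ext0 e (cut T x)) univ ∧ HasCompactSupport (D.ext0 e (cut T x)) ∧
      IsCompact (e.symm '' (K ∩ (fun w => ‖T (w - x)‖ ^ 2) ⁻¹' Icc (1 / 4) (1 / 2))) ∧
      D.HolOn (D.ext0 e (cut T x)) (e.symm '' (K ∩ (fun w => ‖T (w - x)‖ ^ 2) ⁻¹' Icc (1 / 4) (1 / 2)))ᶜ := by
  have h0 : ∀ w, w ∉ K → cut T x w = 0 := fun w hw => cut_zero (by nlinarith [h w hw])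
  have hτ : Continuous fun w => ‖T (w - x)‖ ^ 2 := by fun_prop
  refine ⟨smOn_of_local fun y _ => ?_, hasCompactSupport_ext0 he hK hKe h0,
    isCompact_symm (hK.inter_right (isClosed_Icc.preimage hτ)) (inter_subset_left.trans hKe), holOn_of_local fun y hy => ?_⟩
  · by_cases h1 : y ∈ e.symm '' K
    · exact ⟨_, ext0_ev ((he.mem_image hKe).1 h1).1, (contDiff_cut T x).contDiffAt⟩
    · exact ⟨fun _ => 0, ext0_ev_zero he hK hKe h0 h1, contDiffAt_const⟩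
  · by_cases h1 : y ∈ e.symm '' K
    · obtain ⟨h2, h3⟩ := (he.mem_image hKe).1 h1
      refine ⟨_, ext0_ev h2, ?_⟩
      have h4 : ¬(1 / 4 ≤ ‖T (D.π y - x)‖ ^ 2 ∧ ‖T (D.π y - x)‖ ^ 2 ≤ 1 / 2) := fun h4 =>
        hy ((he.mem_image (inter_subset_left.trans hKe)).2 ⟨h2, h3, h4⟩)
      rcases not_and_or.1 h4 with h5 | h5
      · refine (differentiableAt_const (1 : ℂ)).congr_of_eventuallyEq ?_
        filter_upwards [hτ.continuousAt.eventually (gt_mem_nhds (not_le.1 h5))] with w hw using cut_one hw.le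
      · refine (differentiableAt_const (0 : ℂ)).congr_of_eventuallyEq ?_
        filter_upwards [hτ.continuousAt.eventually (lt_mem_nhds (not_le.1 h5))] with w hw using cut_zero hw.le
    · exact ⟨fun _ => 0, ext0_ev_zero he hK hKe h0 h1, differentiableAt_const _⟩

/-- The sum of the poles. -/
def _root_.Crest.Agent.R269.poles {ν : ℕ} (x : Fin ν → Cn n) (T : Fin ν → Cn n →L[ℂ] Cn n) (ε : ℝ) (w : Cn n) : ℝ :=
  ∑ j, (n + 1) * pole (T j) (x j) ε w

theorem ev_far {ν : ℕ} (x : Fin ν → Cn n) (T : Fin ν → Cn n →L[ℂ] Cn n) (p : Fin ν → Prop) {w : Cn n}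
    (h : ∀ k, p k → 1 < ‖T k (w - x k)‖) : ∀ᶠ w' in 𝓝 w, ∀ k, p k → 1 < ‖T k (w' - x k)‖ := by
  refine eventually_all.2 fun k => eventually_all.2 fun hk => ?_
  exact (show Continuous fun w => ‖T k (w - x k)‖ by fun_prop).continuousAt.eventually (lt_mem_nhds (h k hk))

theorem poles_ev {ν : ℕ} (x : Fin ν → Cn n) (T : Fin ν → Cn n →L[ℂ] Cn n)
    (hd : ∀ i j, i ≠ j → ∀ w, ‖T i (w - x i)‖ ≤ 1 → 1 < ‖T j (w - x j)‖) {ε : ℝ} (hε : 0 < ε) {j : Fin ν} {w : Cn n}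
    (hw : ‖T j (w - x j)‖ ≤ 1) : poles x T ε =ᶠ[𝓝 w] fun y => (n + 1) * pole (T j) (x j) ε y := by
  filter_upwards [ev_far x T (· ≠ j) fun k hk => hd j k hk.symm w hw] with y hy
  exact Finset.sum_eq_single j (fun k _ hk => by rw [pole_eq_zero hε (hy k hk), mul_zero]) (by simp)

theorem interp_wt {P : D.M → ℝ} (hW : D.Wt P) (hP : D.VBM P univ fun _ => 0)
    {e : OpenPartialHomeomorph D.M (Cn n)} (he : D.IsCh e) {K : Set (Cn n)} (hK : IsCompact K) (hKe : K ⊆ e.target)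
    {ν : ℕ} (x : Fin ν → Cn n) (T : Fin ν → Cn n →L[ℂ] Cn n) {lam : ℝ} (hlam : 0 < lam)
    (hE : ∀ i w, ‖T i (w - x i)‖ ≤ 1 → w ∈ K ∧ ContDiffAt ℝ 2 (P ∘ e.symm) w ∧
      ∀ v, lam * ‖v‖ ^ 2 + 4 * (n + 1) * ‖T i v‖ ^ 2 ≤ levi (P ∘ e.symm) w v)
    (hd : ∀ i j, i ≠ j → ∀ w, ‖T i (w - x i)‖ ≤ 1 → 1 < ‖T j (w - x j)‖) {ε : ℝ} (hε : 0 < ε) :
    D.Wt (fun y => P y + D.ext0 e (poles x T ε) y) ∧ D.VBM (fun y => P y + D.ext0 e (poles x T ε) y) univ (fun _ => 0) ∧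
      D.VBM (fun y => P y + D.ext0 e (poles x T ε) y) {y | y ∈ e.source ∧ ∃ j, ‖T j (D.π y - x j)‖ ≤ 1}
        fun v => lam * ∑ j, ‖v j‖ ^ 2 := by
  have hz : ∀ w, (∀ j, 1 < ‖T j (w - x j)‖) → poles x T ε w = 0 := fun w hw =>
    Finset.sum_eq_zero fun j _ => by rw [pole_eq_zero hε (hw j), mul_zero]
  have h0 : ∀ w, w ∉ K → poles x T ε w = 0 := fun w hw => hz w fun j => not_le.1 fun h => hw (hE j w h).1
  have hc : Continuous (poles x T ε) := continuous_finsetSum _ fun j _ => continuous_const.mul (continuous_pole _ _ hε)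
  have h3 : D.VBM (fun y => P y + D.ext0 e (poles x T ε) y) {y | y ∈ e.source ∧ ∃ j, ‖T j (D.π y - x j)‖ ≤ 1}
      fun v => lam * ∑ j, ‖v j‖ ^ 2 := by
    refine vbm_of_local fun y ⟨hy, j, hj⟩ => ⟨_, ?_, vb_pole (T j) (x j) hε (hE j _ hj).2.1 (a := n + 1) (by positivity) (hE j _ hj).2.2⟩
    filter_upwards [he.ev_comp_pi hy P, ext0_ev (f := poles x T ε) hy, (D.tendsto_pi y).eventually (poles_ev x T hd hε hj)]
      with z h1 h2 h3
    rw [h2, h1]
    exact congrArg _ h3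
  refine ⟨hW.add_cont (continuous_iff_continuousAt.2 fun y => ?_), vbm_of_local fun y _ => ?_, h3⟩
  · by_cases h1 : y ∈ e.symm '' K
    · exact ContinuousAt.congr (hc.comp D.loc.continuous).continuousAt (ext0_ev ((he.mem_image hKe).1 h1).1).symm
    · exact ContinuousAt.congr continuousAt_const (ext0_ev_zero he hK hKe h0 h1).symm
  · obtain ⟨e', he', hy⟩ := D.exists_ch y
    by_cases h1 : y ∈ e.source ∧ ∃ j, ‖T j (D.π y - x j)‖ ≤ 1
    · exact ⟨_, he'.ev_comp_pi hy _, (h3.pt he' hy h1).mono subset_rfl fun v => by positivity⟩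
    refine ⟨_, ?_, hP.pt he' hy trivial⟩
    refine EventuallyEq.trans ?_ (he'.ev_comp_pi hy _)
    by_cases h2 : y ∈ e.source
    · filter_upwards [ext0_ev (f := poles x T ε) h2, (D.tendsto_pi y).eventually
        (ev_far x T (fun _ => True) fun k _ => not_le.1 fun h => h1 ⟨h2, k, h⟩)] with z h4 h5
      rw [h4, Function.comp_apply, hz _ fun j => h5 j trivial, add_zero]
    · filter_upwards [ext0_ev_zero he hK hKe h0 fun h => h2 ((he.mem_image hKe).1 h).1] with z h4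
      rw [h4, add_zero]

theorem interp (hH : Horm n) {ρ P : D.M → ℝ} (hρ : D.Exh ρ) (hW : D.Wt P) (hP : D.VBM P univ fun _ => 0)
    {e : OpenPartialHomeomorph D.M (Cn n)} (he : D.IsCh e) {K : Set (Cn n)} (hK : IsCompact K) (hKe : K ⊆ e.target)
    {ν : ℕ} (x : Fin ν → Cn n) (T : Fin ν → Cn n →L[ℂ] Cn n) {lam : ℝ} (hlam : 0 < lam)
    (hE : ∀ i w, ‖T i (w - x i)‖ ≤ 1 → w ∈ K ∧ ContDiffAt ℝ 2 (P ∘ e.symm) w ∧
      ∀ v, lam * ‖v‖ ^ 2 + 4 * (n + 1) * ‖T i v‖ ^ 2 ≤ levi (P ∘ e.symm) w v)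
    (hd : ∀ i j, i ≠ j → ∀ w, ‖T i (w - x i)‖ ≤ 1 → 1 < ‖T j (w - x j)‖) (i : Fin ν) {η : ℝ} (hη : 0 < η) :
    ∃ (f g : D.M → ℂ) (φ : D.M → ℝ) (C C' : ℝ), D.HolOn f univ ∧ HasCompactSupport g ∧ (∀ y, φ y ≤ P y + C) ∧
      D.L2Bd (f - g) φ C' ∧ ∀ j, ‖f (e.symm (x j)) - if j = i then 1 else 0‖ ≤ η := by
  have hK0 : ∀ j w, w ∉ K → 1 < ‖T j (w - x j)‖ := fun j w hw => not_le.1 fun h => hw (hE j w h).1
  have hτ : Continuous fun w => ‖T i (w - x i)‖ ^ 2 := by fun_prop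
  obtain ⟨hgs, hgc, hK', hgh⟩ := interp_cut he hK hKe (T i) (x i) (hK0 i)
  have hWo : IsOpen (e.source ∩ D.π ⁻¹' ((fun w => ‖T i (w - x i)‖ ^ 2) ⁻¹' Ioo (1 / 8) 1)) :=
    e.open_source.inter ((isOpen_Ioo.preimage hτ).preimage D.loc.continuous)
  obtain ⟨C, hC⟩ := hH D ρ hρ _ _ _ lam hgs hgc hK' hWo (fun y hy => by
    obtain ⟨h1, -, h2, h3⟩ := (he.mem_image (inter_subset_left.trans hKe)).1 hy
    exact ⟨h1, by linarith, by linarith⟩) hgh hlam
  obtain ⟨B₀, hB₀⟩ : ∃ B₀, ∀ j w, ‖T j (w - x j)‖ ≤ 1 → |P (e.symm w)| ≤ B₀ := by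
    have h1 : IsCompact (⋃ j, {w | ‖T j (w - x j)‖ ≤ 1}) := isCompact_iUnion fun j =>
      hK.of_isClosed_subset (isClosed_le (by fun_prop) continuous_const) fun w hw => (hE j w hw).1
    obtain ⟨B₀, h⟩ := h1.exists_bound_of_continuousOn (f := P ∘ e.symm) fun w hw => by
      obtain ⟨j, hj⟩ := mem_iUnion.1 hw
      exact (hE j w hj).2.1.continuousAt.continuousWithinAt
    exact ⟨B₀, fun j w hw => h w (mem_iUnion.2 ⟨j, hw⟩)⟩
  obtain ⟨M, hM0, hM⟩ : ∃ M : ℝ, 0 < M ∧ ∀ j, ‖T j‖ ≤ M :=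
    ⟨∑ j, ‖T j‖ + 1, by positivity, fun j =>
      (Finset.single_le_sum (f := fun j => ‖T j‖) (fun _ _ => norm_nonneg _) (Finset.mem_univ j)).trans (by linarith)⟩
  obtain ⟨v, hv⟩ : ∃ v, v = (volume (ball (0 : Cn n) 1)).toReal := ⟨_, rfl⟩
  have hv0 : 0 < v := hv ▸ ENNReal.toReal_pos (measure_ball_pos _ _ one_pos).ne' measure_ball_lt_top.ne
  obtain ⟨C₁, hC₁⟩ : ∃ C₁, C₁ = |C| * Real.exp (B₀ + (n + 1) * 8) := ⟨_, rfl⟩
  have hC₁0 : 0 ≤ C₁ := by rw [hC₁]; positivity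
  obtain ⟨Q, hQ⟩ : ∃ Q, Q = Real.exp (B₀ + (n + 1) * 3) * 2 ^ (n + 1) * C₁ * M ^ (2 * n) / v := ⟨_, rfl⟩
  have hQ0 : 0 ≤ Q := by rw [hQ]; positivity
  obtain ⟨ε, hε, hε4, hεQ⟩ : ∃ ε : ℝ, 0 < ε ∧ ε ≤ 1 / 4 ∧ ε * Q ≤ η ^ 2 := by
    refine ⟨min (1 / 4) (η ^ 2 / (Q + 1)), by positivity, min_le_left _ _, ?_⟩
    have h1 := (le_div_iff₀ (by positivity)).1 (min_le_right (1 / 4) (η ^ 2 / (Q + 1)))
    have h2 : 0 < min (1 / 4) (η ^ 2 / (Q + 1)) := by positivity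
    nlinarith
  obtain ⟨h1, h2, h3⟩ := interp_wt hW hP he hK hKe x T hlam hE hd hε
  have hloc := fun j w hw => (poles_ev x T hd hε (j := j) (w := w) hw).self_of_nhds
  obtain ⟨f, hf, hL⟩ := hC _ h1 h2 (h3.mono (fun y hy => ⟨hy.1, i, by nlinarith [hy.2.2, norm_nonneg (T i (D.π y - x i))]⟩)
    fun _ => le_rfl) (B₀ + (n + 1) * 8) fun y hy => by
      have h4 : ‖T i (D.π y - x i)‖ ≤ 1 := by nlinarith [hy.2.2, norm_nonneg (T i (D.π y - x i))]
      have h5 := (abs_le.1 (hB₀ i _ h4)).1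
      have h6 : -8 ≤ pole (T i) (x i) ε (D.π y) := gg_lower (by linarith [hy.2.1])
      rw [he.symm_pi hy.1] at h5
      rw [ext0_of_mem hy.1, hloc i _ h4]
      nlinarith [(Nat.cast_nonneg n : (0 : ℝ) ≤ n)]
  refine ⟨f, _, _, ν * ((n + 1) * 2), _, hf, hgc, fun y => ?_, hL, fun j => ?_⟩
  · refine add_le_add_right ?_ _
    by_cases hy : y ∈ e.source
    · rw [ext0_of_mem hy, poles]
      refine (Finset.sum_le_card_nsmul _ _ (((n : ℝ) + 1) * 2) fun j _ => ?_).trans_eq (by simp)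
      exact mul_le_mul_of_nonneg_left (gg_le (by positivity)) (by positivity)
    · rw [ext0, indicator_of_notMem hy]
      positivity
  have hδ : 0 < √ε / M := by positivity
  have hb : ∀ w ∈ ball (x j) (√ε / M), ‖T j (w - x j)‖ ^ 2 ≤ ε := fun w hw => by
    rw [← Real.le_sqrt (norm_nonneg _) hε.le]
    refine ((T j).le_opNorm _).trans ((mul_le_mul (hM j) (mem_ball_iff_norm.1 hw).le (norm_nonneg _) hM0.le).trans_eq ?_)
    field_simp
  have hb1 : ∀ w ∈ ball (x j) (√ε / M), ‖T j (w - x j)‖ ≤ 1 := fun w hw => by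
    nlinarith [hb w hw, norm_nonneg (T j (w - x j))]
  have hbe : ball (x j) (√ε / M) ⊆ e.target := fun w hw => hKe (hE j w (hb1 w hw)).1
  have hg : ∀ w ∈ ball (x j) (√ε / M), D.ext0 e (cut (T i) (x i)) (e.symm w) = if j = i then 1 else 0 := fun w hw => by
    rw [ext0_symm he (hbe hw)]
    split_ifs with hji
    · subst hji
      exact cut_one ((hb w hw).trans hε4)
    · exact cut_zero (by nlinarith [hd j i hji w (hb1 w hw)])
  have hmv := mv_weight (f := fun w => f (e.symm w) - if j = i then 1 else 0)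
    (φ := fun w => P (e.symm w) + D.ext0 e (poles x T ε) (e.symm w))
    (b := Real.exp (B₀ + (n + 1) * 3) * (2 * ε) ^ (n + 1)) hδ
    (((hf e he).mono fun w hw => ⟨hbe hw, trivial⟩).sub_const _) (fun w hw => by
      have h4 : pole (T j) (x j) ε w ≤ Real.log (2 * ε) + 3 :=
        (gg_small (by positivity) (by linarith [hb w hw])).trans
          (add_le_add_left (Real.log_le_log (by positivity) (by linarith [hb w hw])) _)
      rw [ext0_symm he (hbe hw), hloc j w (hb1 w hw), ← Real.exp_log (show 0 < (2 * ε) ^ (n + 1) by positivity),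
        ← Real.exp_add, Real.exp_le_exp, Real.log_pow]
      push_cast
      nlinarith [(abs_le.1 (hB₀ j w (hb1 w hw))).2, (Nat.cast_nonneg n : (0 : ℝ) ≤ n)]) hC₁0 (by
      refine le_trans (le_of_eq (setLIntegral_congr_fun measurableSet_ball fun w hw => ?_))
        ((hL.chart he isOpen_ball hbe).trans (ENNReal.ofReal_le_ofReal ?_))
      · simp only [Pi.sub_apply, hg w hw]
      · rw [hC₁]
        exact mul_le_mul_of_nonneg_right (le_abs_self C) (Real.exp_pos _).le)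
  rw [← hv, div_pow, pow_mul, Real.sq_sqrt hε.le] at hmv
  refine (pow_le_pow_iff_left₀ (norm_nonneg _) hη.le two_ne_zero).1 (le_trans ?_ hεQ)
  refine le_of_mul_le_mul_right (hmv.trans_eq ?_) (by positivity)
  rw [hQ]
  field_simp
  ring

end RDom

end Crest.Agent.R269
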