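import Crest.Agent.R269.I.Loc

/-!
# Row 269, block I2: packing of ellipsoids (owner helper41)
-/

set_option autoImplicit false
set_option linter.unusedSectionVars false
set_option linter.unusedVariables false

noncomputable section

namespace Crest.Agent.R269

open Set Metric Filter Topology MeasureTheory Matrix
open Crest.AlgGeometry.ProjEmb
open scoped InnerProductSpace ContDiff ComplexOrder

variable {n : ℕ}

/-- `A = Bᴴ B` (`CStarAlgebra.nonneg_iff_eq_star_mul_self`, `open scoped MatrixOrder`), `S = toEuclideanCLM B`;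
`LinearMap.det_restrictScalars`, `Algebra.norm_complex_apply`. -/
theorem exists_root {A : Matrix (Fin n) (Fin n) ℂ} (hA : A.PosSemidef) : ∃ S : Cn n →L[ℂ] Cn n, (∀ v, ‖S v‖ ^ 2 = qf A v) ∧
    LinearMap.det ((S : Cn n →ₗ[ℂ] Cn n).restrictScalars ℝ) = A.det.re := by
  open scoped MatrixOrder in
  obtain ⟨B, rfl⟩ := CStarAlgebra.nonneg_iff_eq_star_mul_self.mp hA.nonneg
  refine ⟨toEuclideanCLM (n := Fin n) (𝕜 := ℂ) B, fun v => ?_, ?_⟩
  · rw [qf, star_eq_conjTranspose, ← mulVec_mulVec, dotProduct_mulVec, ← star_mulVec, ← inner_self_eq_norm_sq (𝕜 := ℂ),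
      EuclideanSpace.inner_eq_star_dotProduct, dotProduct_comm]
    rfl
  · rw [LinearMap.det_restrictScalars, coe_toEuclideanCLM_eq_toEuclideanLin, toEuclideanLin_eq_toLin_orthonormal,
      LinearMap.det_toLin, Algebra.norm_complex_apply, det_mul, star_eq_conjTranspose, det_conjTranspose, Complex.star_def,
      ← Complex.normSq_eq_conj_mul_self, Complex.ofReal_re]

/-- `Measure.addHaar_preimage_linearMap`, `measure_preimage_sub_right`, `Measure.addHaar_closedBall`. -/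
theorem vol_ell (S : Cn n →L[ℂ] Cn n) {d : ℝ} (hd : 0 < d) (h : d ≤ LinearMap.det ((S : Cn n →ₗ[ℂ] Cn n).restrictScalars ℝ))
    (x : Cn n) {r : ℝ} (hr : 0 ≤ r) :
    volume {w | ‖S (w - x)‖ ^ 2 ≤ r} ≤ ENNReal.ofReal (r ^ n / d) * volume (ball (0 : Cn n) 1) := by
  have h1 : {w | ‖S (w - x)‖ ^ 2 ≤ r} =
      (fun w => w + -x) ⁻¹' (((S : Cn n →ₗ[ℂ] Cn n).restrictScalars ℝ) ⁻¹' closedBall 0 √r) := by
    ext w
    simp [Real.le_sqrt (norm_nonneg _) hr, -map_sub, ← sub_eq_add_neg]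
  have h0 := hd.trans_le h
  rw [h1, measure_preimage_add_right, Measure.addHaar_preimage_linearMap _ h0.ne',
    Measure.addHaar_closedBall _ _ (Real.sqrt_nonneg r), finrank_Cn, ← mul_assoc, ← ENNReal.ofReal_mul (abs_nonneg _),
    pow_mul, Real.sq_sqrt hr, abs_of_pos (inv_pos.2 h0)]
  gcongr
  rw [inv_mul_eq_div]
  gcongr

theorem qf_smul (A : Matrix (Fin n) (Fin n) ℂ) (v : Cn n) (t : ℂ) : qf A (t • v) = ‖t‖ ^ 2 * qf A v := by
  simp only [qf, WithLp.ofLp_smul, star_smul, mulVec_smul, smul_dotProduct, dotProduct_smul, smul_eq_mul, ← mul_assoc,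
    Complex.star_def, Complex.mul_conj, Complex.normSq_eq_norm_sq, Complex.re_ofReal_mul]

theorem qf_of_sphere {f g : Cn n → ℝ} (hf : ∀ v (t : ℂ), f (t • v) = ‖t‖ ^ 2 * f v) (hg : ∀ v (t : ℂ), g (t • v) = ‖t‖ ^ 2 * g v)
    (h : ∀ v, ‖v‖ = 1 → f v ≤ g v) (v : Cn n) : f v ≤ g v := by
  by_cases hv : v = 0
  · have h1 := hf v 0
    have h2 := hg v 0
    simp only [hv, smul_zero, norm_zero, ne_eq, OfNat.ofNat_ne_zero, not_false_eq_true, zero_pow, zero_mul] at h1 h2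
    rw [hv, h1, h2]
  · have h0 : (‖v‖ : ℂ) ≠ 0 := by simpa using hv
    have h1 : v = (‖v‖ : ℂ) • (‖v‖ : ℂ)⁻¹ • v := by rw [smul_inv_smul₀ h0]
    rw [h1, hf, hg]
    refine mul_le_mul_of_nonneg_left (h _ ?_) (by positivity)
    simp [norm_smul, hv]

theorem continuousOn_qf {A : Cn n → Matrix (Fin n) (Fin n) ℂ} {K : Set (Cn n)} (hA : ContinuousOn A K) (S : Set (Cn n)) :
    ContinuousOn (fun p : Cn n × Cn n => qf (A p.1) p.2) (K ×ˢ S) := by
  have h1 : Continuous fun p : Matrix (Fin n) (Fin n) ℂ × Cn n => qf p.1 p.2 := by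
    unfold qf
    fun_prop
  have h2 : ContinuousOn (fun p : Cn n × Cn n => (A p.1, p.2)) (K ×ˢ S) :=
    (hA.comp continuousOn_fst fun p hp => hp.1).prodMk continuousOn_snd
  simpa only [Function.comp_def] using h1.comp_continuousOn h2

/-- Compactness of `K × sphere`: `qf (A w) v = 0` forces `A w v = 0` (`PosSemidef.dotProduct_mulVec_zero_iff`), `det ≠ 0`. -/
theorem exists_lam_qf {A : Cn n → Matrix (Fin n) (Fin n) ℂ} {K : Set (Cn n)} (hK : IsCompact K) (hA : ContinuousOn A K)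
    (hpos : ∀ w ∈ K, (A w).PosSemidef ∧ (A w).det ≠ 0) : ∃ lam : ℝ, 0 < lam ∧ ∀ w ∈ K, ∀ v, lam * ‖v‖ ^ 2 ≤ qf (A w) v := by
  have hc : IsCompact (K ×ˢ sphere (0 : Cn n) 1) := hK.prod (isCompact_sphere _ _)
  obtain ⟨lam, hlam, h⟩ := hc.exists_forall_le' (continuousOn_qf hA _) (a := 0) fun p hp => by
    have h1 := (hpos _ hp.1).1
    have h2 : (0 : ℂ) ≤ star p.2.ofLp ⬝ᵥ A p.1 *ᵥ p.2.ofLp := h1.dotProduct_mulVec_nonneg _
    refine lt_of_le_of_ne (Complex.nonneg_iff.1 h2).1 fun h3 => ?_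
    have h4 : star p.2.ofLp ⬝ᵥ A p.1 *ᵥ p.2.ofLp = 0 := Complex.ext h3.symm (Complex.nonneg_iff.1 h2).2.symm
    have h5 := eq_zero_of_mulVec_eq_zero (hpos _ hp.1).2 ((h1.dotProduct_mulVec_zero_iff _).1 h4)
    have h6 : p.2 = 0 := by ext i; exact congrFun h5 i
    simpa [h6] using hp.2
  exact ⟨lam, hlam, fun w hw => qf_of_sphere (f := fun v => lam * ‖v‖ ^ 2) (g := qf (A w)) (fun v t => by rw [norm_smul]; ring)
    (qf_smul _) fun v hv => by simpa [hv] using h (w, v) ⟨hw, by simpa using hv⟩⟩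

/-- Uniform continuity of `(w, v) ↦ qf (A w) v` on `K × sphere`. -/
theorem exists_delta_qf {A : Cn n → Matrix (Fin n) (Fin n) ℂ} {K : Set (Cn n)} (hK : IsCompact K) (hA : ContinuousOn A K)
    {lam : ℝ} (hlam : 0 < lam) (h : ∀ w ∈ K, ∀ v, lam * ‖v‖ ^ 2 ≤ qf (A w) v) :
    ∃ δ : ℝ, 0 < δ ∧ ∀ w ∈ K, ∀ w' ∈ K, ‖w - w'‖ ≤ δ → ∀ v, qf (A w) v ≤ 2 * qf (A w') v := by
  have hc : IsCompact (K ×ˢ sphere (0 : Cn n) 1) := hK.prod (isCompact_sphere _ _)
  obtain ⟨δ, hδ, h1⟩ := Metric.uniformContinuousOn_iff_le.1 (hc.uniformContinuousOn_of_continuous (continuousOn_qf hA _)) lam hlam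
  refine ⟨δ, hδ, fun w hw w' hw' hd => qf_of_sphere (f := qf (A w)) (g := fun v => 2 * qf (A w') v) (qf_smul _)
    (fun v t => by rw [qf_smul]; ring) fun v hv => ?_⟩
  have h2 := h1 (w, v) ⟨hw, by simpa using hv⟩ (w', v) ⟨hw', by simpa using hv⟩ (by simpa [Prod.dist_eq, dist_eq_norm, hδ.le] using hd)
  have h3 := h w' hw' v
  rw [hv, one_pow, mul_one] at h3
  rw [Real.dist_eq] at h2
  linarith [(abs_le.1 h2).2]

/-- Either the separated finite subsets have unbounded cardinality, or one of maximal cardinality is maximal. -/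
theorem exists_sep {α : Type} (K : Set α) (E : α → Set α) (b : ℝ) : ∃ s : Finset α, (s : Set α) ⊆ K ∧
    (∀ x ∈ s, ∀ y ∈ s, x ≠ y → Disjoint (E x) (E y)) ∧
      (b ≤ s.card ∨ ∀ z ∈ K, ∃ x ∈ s, z = x ∨ ¬ Disjoint (E z) (E x)) := by
  classical
  let Q : Finset α → Prop := fun s => (s : Set α) ⊆ K ∧ ∀ x ∈ s, ∀ y ∈ s, x ≠ y → Disjoint (E x) (E y)
  by_cases h : ∃ s, Q s ∧ b ≤ s.card
  · obtain ⟨s, h1, h2⟩ := h
    exact ⟨s, h1.1, h1.2, Or.inl h2⟩
  push Not at h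
  obtain ⟨N, hN⟩ := exists_nat_ge b
  have hex : ∃ k, ∃ s, Q s ∧ N - s.card = k := ⟨_, ∅, ⟨by simp, by simp⟩, rfl⟩
  obtain ⟨s, hs, hk⟩ := Nat.find_spec hex
  refine ⟨s, hs.1, hs.2, Or.inr fun z hz => ?_⟩
  by_contra hcon
  push Not at hcon
  have hzs : z ∉ s := fun h' => (hcon z h').1 rfl
  have hQ : Q (insert z s) := by
    refine ⟨by rw [Finset.coe_insert]; exact insert_subset hz hs.1, fun x hx y hy hxy => ?_⟩
    rcases Finset.mem_insert.1 hx with rfl | hx' <;> rcases Finset.mem_insert.1 hy with rfl | hy'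
    · exact absurd rfl hxy
    · exact (hcon y hy').2
    · exact (hcon x hx').2.symm
    · exact hs.2 x hx' y hy' hxy
  have h1 := Nat.find_min' hex ⟨_, hQ, rfl⟩
  have h2 : (insert z s).card < N := by exact_mod_cast (h _ hQ).trans_le hN
  rw [Finset.card_insert_of_notMem hzs] at h1 h2
  omega

/-- `E x = {‖S_x (w - x)‖² ≤ r}`, `T = S / √r`, `K = closedBall w₀ R`; for `√(r / lam) ≤ min (δ/2) (R/2)` a point `z` with
`E z ∩ E x ≠ ∅` has `‖S_x (z - x)‖² ≤ 2 · 2 r + 2 r`; compare volumes. -/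
theorem pack {A : Cn n → Matrix (Fin n) (Fin n) ℂ} {w₀ : Cn n} {R d : ℝ} (hR : 0 < R) (hd : 0 < d)
    (hA : ContinuousOn A (closedBall w₀ (2 * R))) (hpos : ∀ w ∈ closedBall w₀ (2 * R), (A w).PosSemidef ∧ d ≤ (A w).det.re) :
    ∃ lam r₀ : ℝ, 0 < lam ∧ 0 < r₀ ∧ (∀ w ∈ closedBall w₀ (2 * R), ∀ v, lam * ‖v‖ ^ 2 ≤ qf (A w) v) ∧
      ∀ r, 0 < r → r ≤ r₀ → ∃ (ν : ℕ) (x : Fin ν → Cn n) (T : Fin ν → Cn n →L[ℂ] Cn n), R ^ (2 * n) * d ≤ ν * (6 * r) ^ n ∧
        (∀ i w, ‖T i (w - x i)‖ ≤ 1 → w ∈ ball w₀ (2 * R) ∧ ∀ v, r * ‖T i v‖ ^ 2 ≤ 2 * qf (A w) v) ∧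
        ∀ i j, i ≠ j → ∀ w, ‖T i (w - x i)‖ ≤ 1 → 1 < ‖T j (w - x j)‖ := by
  obtain ⟨lam, hlam, hlow⟩ := exists_lam_qf (isCompact_closedBall _ _) hA fun w hw =>
    ⟨(hpos w hw).1, fun h => by simpa [h, hd.not_ge] using (hpos w hw).2⟩
  obtain ⟨δ, hδ, hcl⟩ := exists_delta_qf (isCompact_closedBall _ _) hA hlam hlow
  obtain ⟨ρ, hρ, hρδ, hρR⟩ : ∃ ρ : ℝ, 0 < ρ ∧ 2 * ρ ≤ δ ∧ 2 * ρ ≤ R :=
    ⟨min δ R / 2, by positivity, by linarith [min_le_left δ R], by linarith [min_le_right δ R]⟩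
  refine ⟨lam, lam * ρ ^ 2, hlam, by positivity, hlow, fun r hr hr₀ => ?_⟩
  have h12 : closedBall w₀ R ⊆ closedBall w₀ (2 * R) := closedBall_subset_closedBall (by linarith)
  have hS : ∀ x : Cn n, ∃ S : Cn n →L[ℂ] Cn n, x ∈ closedBall w₀ R → (∀ v, ‖S v‖ ^ 2 = qf (A x) v) ∧
      d ≤ LinearMap.det ((S : Cn n →ₗ[ℂ] Cn n).restrictScalars ℝ) := fun x => by
    by_cases hx : x ∈ closedBall w₀ R
    · obtain ⟨S, h1, h2⟩ := exists_root (hpos x (h12 hx)).1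
      exact ⟨S, fun _ => ⟨h1, h2 ▸ (hpos x (h12 hx)).2⟩⟩
    · exact ⟨0, fun h => absurd h hx⟩
  choose S hS using hS
  have hnear : ∀ x ∈ closedBall w₀ R, ∀ w, ‖S x (w - x)‖ ^ 2 ≤ r → ‖w - x‖ ≤ ρ := fun x hx w hw => by
    have h1 := hlow x (h12 hx) (w - x)
    rw [← (hS x hx).1] at h1
    exact (pow_le_pow_iff_left₀ (norm_nonneg _) hρ.le two_ne_zero).1 (le_of_mul_le_mul_left (h1.trans (hw.trans hr₀)) hlam)
  obtain ⟨s, hsK, hsd, hs⟩ := exists_sep (closedBall w₀ R) (fun x => {w | ‖S x (w - x)‖ ^ 2 ≤ r}) (R ^ (2 * n) * d / (6 * r) ^ n)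
  have hT : ∀ x v, r * ‖(((√r)⁻¹ : ℝ) : ℂ) • S x v‖ ^ 2 = ‖S x v‖ ^ 2 := fun x v => by
    rw [norm_smul, mul_pow, Complex.norm_real, Real.norm_eq_abs, sq_abs, inv_pow, Real.sq_sqrt hr.le, mul_inv_cancel_left₀ hr.ne']
  have hT' : ∀ x v, ‖(((√r)⁻¹ : ℝ) : ℂ) • S x v‖ ≤ 1 ↔ ‖S x v‖ ^ 2 ≤ r := fun x v => by
    rw [← hT, mul_le_iff_le_one_right hr, sq_le_one_iff₀ (norm_nonneg _)]
  refine ⟨s.card, fun i => s.equivFin.symm i, fun i => (((√r)⁻¹ : ℝ) : ℂ) • S (s.equivFin.symm i), ?_, fun i w hw => ?_,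
    fun i j hij w hw => ?_⟩
  · rw [← div_le_iff₀ (by positivity)]
    refine hs.elim id fun hs => ?_
    have hcov : closedBall w₀ R ⊆ ⋃ x ∈ s, {w | ‖S x (w - x)‖ ^ 2 ≤ 6 * r} := fun z hz => by
      obtain ⟨x, hx, h⟩ := hs z hz
      refine mem_iUnion₂.2 ⟨x, hx, ?_⟩
      rcases h with rfl | h
      · simp [hr.le]
      obtain ⟨w, hwz, hwx⟩ := not_disjoint_iff.1 h
      have h1 := hnear z hz w hwz
      have h2 := hnear x (hsK hx) w hwx
      have h3 : ‖x - z‖ ≤ δ := by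
        have := norm_sub_le_norm_sub_add_norm_sub x w z
        rw [norm_sub_rev x w] at this
        linarith
      have h4 := hcl x (h12 (hsK hx)) z (h12 hz) h3 (w - z)
      rw [← (hS x (hsK hx)).1, ← (hS z hz).1] at h4
      have h5 : ‖S x (z - x)‖ ≤ ‖S x (w - x)‖ + ‖S x (w - z)‖ := by
        rw [show z - x = (w - x) - (w - z) by abel, map_sub]
        exact norm_sub_le _ _
      simp only [mem_ofPred_eq] at hwz hwx ⊢
      nlinarith [sq_nonneg (‖S x (w - x)‖ - ‖S x (w - z)‖), pow_le_pow_left₀ (norm_nonneg _) h5 2]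
    have h1 := (measure_mono (μ := volume) hcov).trans (measure_biUnion_finset_le _ _)
    have h2 := h1.trans (Finset.sum_le_card_nsmul _ _ _ fun x hx => vol_ell (S x) hd (hS x (hsK hx)).2 x (by positivity))
    rw [Measure.addHaar_closedBall _ _ hR.le, finrank_Cn, nsmul_eq_mul, ← mul_assoc,
      ENNReal.mul_le_mul_iff_left (measure_ball_pos _ _ one_pos).ne' measure_ball_lt_top.ne, ← ENNReal.ofReal_natCast,
      ← ENNReal.ofReal_mul (by positivity), ENNReal.ofReal_le_ofReal_iff (by positivity), ← mul_div_assoc, le_div_iff₀ hd] at h2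
    rwa [div_le_iff₀ (by positivity)]
  · have hx := hsK (s.equivFin.symm i).2
    have h1 := hnear _ hx w ((hT' _ _).1 hw)
    have h2 : w ∈ ball w₀ (2 * R) := by
      have := dist_triangle w (s.equivFin.symm i) w₀
      rw [dist_eq_norm w (s.equivFin.symm i)] at this
      have h3 := mem_closedBall.1 hx
      rw [mem_ball]
      linarith
    refine ⟨h2, fun v => ?_⟩
    rw [_root_.smul_apply, hT, (hS _ hx).1]
    exact hcl _ (h12 hx) w (ball_subset_closedBall h2) (by rw [norm_sub_rev]; linarith) v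
  · by_contra h
    exact disjoint_left.1 (hsd _ (s.equivFin.symm i).2 _ (s.equivFin.symm j).2 fun h' =>
      hij (s.equivFin.symm.injective (Subtype.ext h'))) ((hT' _ _).1 hw) ((hT' _ _).1 (not_lt.1 h))

end Crest.Agent.R269
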