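import Crest.Agent.R269.E
import Crest.Agent.R269.I.Pack
import Crest.Agent.R269.I.Glue
import Crest.Agent.R269.I.Interp

/-!
# Row 269, block I2: many sections (statements FROZEN; recipe in Blueprint.lean)
-/

set_option autoImplicit false
set_option linter.unusedSectionVars false
set_option linter.unusedVariables false

noncomputable section

namespace Crest.Agent.R269

open Set Metric Filter Topology MeasureTheory Matrix
open Crest.AlgGeometry.ProjEmb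
open scoped InnerProductSpace ContDiff ComplexOrder

/-- A matrix close to the identity has independent rows. -/
theorem i2_indep {ν : ℕ} (M : Fin ν → Fin ν → ℂ) (h : ∀ i j, ‖M i j - if j = i then 1 else 0‖ ≤ 1 / ((ν : ℝ) + 1))
    (c : Fin ν → ℂ) (hc : ∀ j, ∑ i, c i * M i j = 0) (i : Fin ν) : c i = 0 := by
  obtain ⟨j, -, hj⟩ := Finset.exists_max_image Finset.univ (fun j => ‖c j‖) ⟨i, Finset.mem_univ _⟩
  have h1 : c j = -∑ k, c k * (M k j - if j = k then 1 else 0) := by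
    simp [mul_sub, Finset.sum_sub_distrib, hc j]
  have h2 : ‖c j‖ ≤ ν * (‖c j‖ * (1 / ((ν : ℝ) + 1))) := by
    conv_lhs => rw [h1, norm_neg]
    refine (norm_sum_le _ _).trans ?_
    refine (Finset.sum_le_card_nsmul _ _ (‖c j‖ * (1 / ((ν : ℝ) + 1))) fun k _ => ?_).trans_eq (by simp)
    rw [norm_mul]
    exact mul_le_mul (hj k (Finset.mem_univ _)) (h k j) (norm_nonneg _) (norm_nonneg _)
  have h3 : (0 : ℝ) < ν + 1 := by positivity
  have h4 : ‖c j‖ ≤ 0 := by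
    rw [mul_one_div, ← mul_div_assoc, le_div_iff₀ h3] at h2
    linarith
  exact norm_le_zero_iff.1 ((hj i (Finset.mem_univ _)).trans h4)

theorem i2_pot {N n : ℕ} (X : Geo N n) (Λ) (a b : ℝ) (y : Cn (N + 1)) :
    X.pot Λ a b y = a * X.pot Λ 1 0 y + b * X.pot Λ 0 1 y := by
  simp [Geo.pot]

theorem i2_bell {n : ℕ} (hn : 1 ≤ n) {Φ : Cn n → ℝ} {w : Cn n} (hΦ : ContDiffAt ℝ 2 Φ w) {d : ℝ} (hd : 0 ≤ d)
    (h : ∀ v : Fin n → Cn n, LinearIndependent ℂ v →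
      n * (d * ‖(colM v).det‖ ^ 2) ^ (1 / (n : ℝ)) ≤ ∑ j, levi Φ w (v j)) :
    (leviM Φ w).PosSemidef ∧ d ≤ (leviM Φ w).det.re := by
  refine (bellman_iff hn (leviM_herm hΦ) hd).1 fun v hv => ?_
  have h1 := h v hv
  have hn' : (0 : ℝ) < n := by exact_mod_cast hn
  have h0 : 0 ≤ d * ‖(colM v).det‖ ^ 2 := by positivity
  have h2 : 0 ≤ (d * ‖(colM v).det‖ ^ 2) ^ (1 / (n : ℝ)) := Real.rpow_nonneg h0 _
  simp only [qf_leviM hΦ]
  refine ⟨le_trans (by positivity) h1, ?_⟩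
  rw [← le_div_iff₀' hn'] at h1
  refine le_trans (le_of_eq ?_) (pow_le_pow_left₀ h2 h1 n)
  rw [one_div, Real.rpow_inv_natCast_pow h0 (by omega)]

theorem stI2 {N n : ℕ} (X : Geo N n) (hH : Horm n) (hM : Moll n) {c : ℝ} (hc : 0 < c) : ∃ c' : ℝ, 0 < c' ∧
    ∀ t : ℝ, 0 < t → t ≤ 1 → ∀ u, X.VSub 1 (t - (n + 1)) u c → ∀ᶠ m : ℕ in atTop, ∃ ν : ℕ, c' * (m : ℝ) ^ n ≤ ν ∧
      ∃ s : Fin ν → X.Sec m (⌈(n + 3) * t * m⌉₊ : ℕ), LinearIndependent ℂ s := by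
  have hn := X.npos
  obtain ⟨y, hy⟩ := X.Y_nonempty
  obtain ⟨Λ, h0, -, ⟨f₀, hf₀⟩, -⟩ := X.exists_Lambda hy hy
  have hy₀ : (ell Λ y)⁻¹ • y ∈ X.OmS Λ := by
    refine ⟨X.smul_mem_Y hy (inv_ne_zero h0), ?_, f₀, ?_⟩
    · have : ell Λ ((ell Λ y)⁻¹ • y) = (ell Λ y)⁻¹ * ell Λ y := by simp [ell, mulVec_smul]
      rw [this, inv_mul_cancel₀ h0]
    · rw [X.dl_smul]
      exact mul_ne_zero (pow_ne_zero _ (inv_ne_zero h0)) hf₀
  obtain ⟨e, he, hye⟩ := (X.OmD Λ).exists_ch ⟨_, hy₀⟩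
  obtain ⟨w₀, hw₀⟩ : ∃ w₀, w₀ ∈ e.target := ⟨_, e.map_source hye⟩
  obtain ⟨R₀, hR₀, hRe⟩ := nhds_basis_closedBall.mem_iff.1 (e.open_target.mem_nhds hw₀)
  obtain ⟨R, rfl⟩ : ∃ R, R₀ = 3 * R := ⟨R₀ / 3, by ring⟩
  have hR : 0 < R := by linarith
  have h23 : closedBall w₀ (2 * R) ⊆ ball w₀ (3 * R) := closedBall_subset_ball (by linarith)
  have h2e : closedBall w₀ (2 * R) ⊆ e.target := h23.trans (ball_subset_closedBall.trans hRe)
  obtain ⟨κ, hκ, hdet⟩ := X.exists_vbm_det Λ (RDom.isCompact_symm (D := X.OmD Λ) (isCompact_closedBall w₀ (3 * R)) hRe)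
  obtain ⟨L, hL⟩ : ∃ L : ℝ, L = 64 * (n + 1) := ⟨_, rfl⟩
  have hL0 : 0 < L := by rw [hL]; positivity
  refine ⟨R ^ (2 * n) * (c * κ) / (6 * L) ^ n, by positivity, fun t ht ht1 u hu => ?_⟩
  obtain ⟨B, hB⟩ := hu.bdd
  have hV : IsOpen (e.source ∩ (X.OmD Λ).π ⁻¹' ball w₀ (3 * R)) :=
    e.open_source.inter (isOpen_ball.preimage (X.OmD Λ).loc.continuous)
  obtain ⟨ψ, Φ, hψW, hψ, ⟨C₀, hC₀⟩, hψΦ, hΦ⟩ := RDom.glue (D := X.OmD Λ) hn hM (X.exh_pot Λ) (hu.wt Λ) (hu.vbm Λ)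
    (X.continuous_pot Λ 1 (t - (n + 1))) (B := B) (fun x => by simpa using hB x.1 x.2.1) ht hV
    ((hdet _ _ _ _ hc.le hu).mono (fun x hx => (he.mem_image hRe).2 ⟨hx.1, ball_subset_closedBall hx.2⟩) fun _ => le_rfl)
    (RDom.isCompact_symm (D := X.OmD Λ) (isCompact_closedBall w₀ (2 * R)) h2e)
    fun x hx => ⟨((he.mem_image h2e).1 hx).1, h23 ((he.mem_image h2e).1 hx).2⟩
  have hΦ' : ∀ w ∈ closedBall w₀ (2 * R), ContDiffAt ℝ 2 (Φ ∘ e.symm) w ∧ ∀ v : Fin n → Cn n, LinearIndependent ℂ v →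
      n * (c * κ * ‖(colM v).det‖ ^ 2) ^ (1 / (n : ℝ)) ≤ ∑ j, levi (Φ ∘ e.symm) w (v j) := fun w hw => by
    have := hΦ e he _ ⟨mem_image_of_mem _ hw, e.map_target (h2e hw)⟩
    rwa [he.pi_symm (h2e hw)] at this
  obtain ⟨lam, r₀, hlam, hr₀, hlow, hpack⟩ := pack (A := leviM (Φ ∘ e.symm)) hR (mul_pos hc hκ)
    (fun w hw => (continuousAt_leviM (hΦ' w hw).1).continuousWithinAt)
    fun w hw => i2_bell hn (hΦ' w hw).1 (mul_pos hc hκ).le (hΦ' w hw).2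
  obtain ⟨Cp, hCp⟩ := X.pot_lower Λ
  filter_upwards [eventually_ge_atTop 2,
    (tendsto_const_div_atTop_nhds_zero_nat L).eventually (ge_mem_nhds hr₀)] with m hm hmr
  have hm' : (2 : ℝ) ≤ m := by exact_mod_cast hm
  have hm0 : (0 : ℝ) < m := by linarith
  obtain ⟨ν, x, T, hν, hE, hd⟩ := hpack (L / m) (by positivity) hmr
  obtain ⟨a, ha⟩ : ∃ a : ℝ, a = (m - 1) / (1 + t) := ⟨_, rfl⟩
  have ha4 : m / 4 ≤ a := by
    rw [ha, le_div_iff₀ (by linarith)]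
    nlinarith
  have ha0 : 0 < a := lt_of_lt_of_le (by positivity) ha4
  have hint := fun i => RDom.interp (D := X.OmD Λ) hH (X.exh_pot Λ) (hψW.const_mul ha0.le)
    ((hψ.const_mul ha0.le).mono subset_rfl fun _ => by simp) he (isCompact_closedBall w₀ (2 * R)) h2e x T
    (lam := a / 2 * lam) (by positivity) (fun i w hw => by
      obtain ⟨h1, h2⟩ := hE i w hw
      have h3 := ball_subset_closedBall h1
      have h4 : (fun x => a * ψ x) ∘ e.symm =ᶠ[𝓝 w] fun w => a * (Φ ∘ e.symm) w := by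
        filter_upwards [isOpen_ball.mem_nhds h1] with w' hw'
        exact congrArg (a * ·) (hψΦ (mem_image_of_mem _ (ball_subset_closedBall hw')))
      refine ⟨h3, (contDiffAt_const.mul (hΦ' w h3).1).congr_of_eventuallyEq h4, fun v => ?_⟩
      rw [levi_congr h4, levi_const_mul (hΦ' w h3).1, ← qf_leviM (hΦ' w h3).1]
      have h5 := hlow w h3 v
      have h6 := h2 v
      have h7 : 4 * ((n : ℝ) + 1) ≤ a / 4 * (L / m) := by
        rw [hL]
        refine le_trans (le_of_eq ?_) (mul_le_mul_of_nonneg_right (div_le_div_of_nonneg_right ha4 (by norm_num))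
          (by positivity))
        field_simp
        norm_num
      nlinarith [mul_le_mul_of_nonneg_right h7 (sq_nonneg ‖T i v‖), mul_le_mul_of_nonneg_left h5 ha0.le,
        mul_le_mul_of_nonneg_left h6 ha0.le]) hd i (η := 1 / ((ν : ℝ) + 1)) (by positivity)
  choose f g φ C C' hf hg hφ hL2 hval using hint
  have hs : ∀ i, ∃ s ∈ X.Sec m (⌈(n + 3) * t * m⌉₊ : ℕ), ∀ (y : X.OmS Λ) (f' : X.Fi),
      s f' y.1 = f i y * X.dl f' Λ y.1 ^ m := fun i => by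
    obtain ⟨b, hb⟩ : ∃ b : ℝ, b = (⌈(n + 3) * t * m⌉₊ : ℕ) - (m - 1) * (n + 1) - a * (2 * t - (n + 1)) := ⟨_, rfl⟩
    have hb0 : 0 ≤ b := by
      have h1 := Nat.le_ceil ((n + 3) * t * m)
      have h2 : a * (1 + t) = m - 1 := by rw [ha]; field_simp
      have h3 : a ≤ m := by nlinarith
      have h4 : a * ((n + 3) * t) ≤ m * ((n + 3) * t) := mul_le_mul_of_nonneg_right h3 (by positivity)
      rw [hb, ← h2]
      nlinarith
    refine X.stE Λ (by omega) _ (hf i) (hg i) (C := C i + a * C₀ + b * Cp) (fun y => ?_) (hL2 i)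
    have h1 := hφ i y
    have h2 := mul_le_mul_of_nonneg_left (hC₀ y) ha0.le
    have h3 := mul_le_mul_of_nonneg_left (hCp y.1 y.2).2 hb0
    have h4 : a * (1 + t) = m - 1 := by rw [ha]; field_simp
    rw [i2_pot X Λ 1 (t - (n + 1)), i2_pot X Λ 1 1] at h2
    rw [i2_pot X Λ (m - 1), Int.cast_natCast, ← h4]
    rw [hb, ← h4] at h3
    rw [hb, ← h4]
    nlinarith
  choose s hs hs' using hs
  refine ⟨ν, ?_, fun i => ⟨s i, hs i⟩, Fintype.linearIndependent_iff.2 fun cc hcc => i2_indep _ hval cc fun j => ?_⟩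
  · rw [div_mul_eq_mul_div, div_le_iff₀ (by positivity)]
    refine (mul_le_mul_of_nonneg_right hν (by positivity)).trans_eq ?_
    rw [mul_assoc, ← mul_pow]
    congr 2
    field_simp
  · obtain ⟨f', hf'⟩ := (e.symm (x j)).2.2.2
    have h1 := congrFun (congrFun (congrArg Subtype.val hcc) f') (e.symm (x j)).1
    simp only [AddSubmonoidClass.coe_finsetSum, SetLike.val_smul, Finset.sum_apply, Pi.smul_apply, smul_eq_mul, hs',
      ZeroMemClass.coe_zero, Pi.zero_apply, ← mul_assoc, ← Finset.sum_mul] at h1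
    exact (mul_eq_zero.1 h1).resolve_right (pow_ne_zero _ hf')

end Crest.Agent.R269
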