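import Crest.Agent.R269.Defs
import Crest.Agent.R245.SCV

/-!
# Row 269, block I: `L²` mean value inequality and Cauchy estimate on Euclidean balls of `Cn n`
-/

set_option autoImplicit false
set_option linter.unusedSectionVars false
set_option linter.unusedVariables false

noncomputable section

namespace Crest.Agent.R269

open Set Metric Filter Topology MeasureTheory Matrix
open Crest.AlgGeometry.ProjEmb
open scoped InnerProductSpace ContDiff ENNReal

theorem mv_rot_mp {n : ℕ} (c : Cn n) {a : ℂ} (ha : ‖a‖ = 1) :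
    MeasurePreserving (fun w : Cn n => c + a • w) volume volume := by
  have ha0 : a ≠ 0 := by rintro rfl; simp at ha
  let f : Cn n ≃ₗᵢ[ℝ] Cn n :=
    { (LinearEquiv.smulOfNeZero ℂ (Cn n) a ha0).restrictScalars ℝ with
      norm_map' := fun x => by simp [norm_smul, ha] }
  exact (measurePreserving_add_left volume c).comp f.measurePreserving

theorem mv_rot_int1 {n : ℕ} (c : Cn n) (R : ℝ) {a : ℂ} (ha : ‖a‖ = 1) (g : Cn n → ℝ≥0∞) :
    ∫⁻ w in ball 0 R, g (c + a • w) = ∫⁻ z in ball c R, g z := by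
  have ha0 : a ≠ 0 := by rintro rfl; simp at ha
  have he : MeasurableEmbedding (fun w : Cn n => c + a • w) :=
    ((Homeomorph.smulOfNeZero a ha0).trans (Homeomorph.addLeft c)).measurableEmbedding
  rw [← (mv_rot_mp c ha).setLIntegral_comp_preimage_emb he g (ball c R)]
  congr 2
  ext w
  simp [mem_ball, dist_eq_norm, norm_smul, ha]

theorem mv_circle1 {n : ℕ} {f : Cn n → ℂ} {c : Cn n} {R : ℝ} (hf : DifferentiableOn ℂ f (ball c R))
    {w : Cn n} (hw : w ∈ ball (0 : Cn n) R) :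
    ENNReal.ofReal (‖f c‖ ^ 2) * ENNReal.ofReal (2 * Real.pi) ≤
      ∫⁻ θ in Ioc 0 (2 * Real.pi), ENNReal.ofReal (‖f (c + circleMap 0 1 θ • w)‖ ^ 2) := by
  have hmem : ∀ ζ : ℂ, ‖ζ‖ ≤ 1 → c + ζ • w ∈ ball c R := fun ζ hζ => by
    have h1 := mem_ball_zero_iff.1 hw
    have h2 : ‖ζ‖ * ‖w‖ ≤ ‖w‖ := mul_le_of_le_one_left (norm_nonneg _) hζ
    simp only [mem_ball, dist_eq_norm, add_sub_cancel_left, norm_smul]
    linarith
  have hd : DifferentiableOn ℂ (fun ζ : ℂ => f (c + ζ • w) ^ 2) (closure (ball 0 |(1 : ℝ)|)) := by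
    rw [abs_one, closure_ball _ one_ne_zero]
    exact (hf.comp (by fun_prop) fun ζ hζ => hmem ζ (mem_closedBall_zero_iff.1 hζ)).pow 2
  have h1 := hd.diffContOnCl.circleAverage
  have hpi : 0 < 2 * Real.pi := by positivity
  have hc : Continuous fun θ : ℝ => f (c + circleMap 0 1 θ • w) :=
    hf.continuousOn.comp_continuous (by fun_prop) fun θ => hmem _ (by simp)
  have h2 : ‖f c‖ ^ 2 * (2 * Real.pi) ≤
      ∫ θ in Ioc 0 (2 * Real.pi), ‖f (c + circleMap 0 1 θ • w)‖ ^ 2 := by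
    rw [Real.circleAverage_def] at h1
    simp only [zero_smul, add_zero] at h1
    rw [← norm_pow, ← h1, norm_smul, Real.norm_of_nonneg (by positivity), mul_comm, ← mul_assoc,
      mul_inv_cancel₀ hpi.ne', one_mul, ← intervalIntegral.integral_of_le hpi.le]
    refine (intervalIntegral.norm_integral_le_integral_norm hpi.le).trans (le_of_eq ?_)
    simp only [norm_pow]
  rw [← ENNReal.ofReal_mul (by positivity), ← ofReal_integral_eq_lintegral_ofReal]
  · exact ENNReal.ofReal_le_ofReal h2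
  · exact ((hc.norm.pow 2).integrableOn_Icc).mono_set Ioc_subset_Icc_self
  · exact Eventually.of_forall fun θ => by positivity

/-- The mean value inequality on a Euclidean ball. -/
theorem mv_flat {n : ℕ} {f : Cn n → ℂ} {c : Cn n} {R : ℝ} (hf : DifferentiableOn ℂ f (ball c R)) :
    ENNReal.ofReal (‖f c‖ ^ 2) * volume (ball (0 : Cn n) R) ≤
      ∫⁻ z in ball c R, ENNReal.ofReal (‖f z‖ ^ 2) := by
  have hpi : 0 < 2 * Real.pi := by positivity
  have hmeas : AEMeasurable (Function.uncurry fun (w : Cn n) (θ : ℝ) =>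
      ENNReal.ofReal (‖f (c + circleMap 0 1 θ • w)‖ ^ 2))
      ((volume.restrict (ball (0 : Cn n) R)).prod (volume.restrict (Ioc 0 (2 * Real.pi)))) := by
    rw [Measure.prod_restrict]
    refine ContinuousOn.aemeasurable ?_ (measurableSet_ball.prod measurableSet_Ioc)
    have h1 : ContinuousOn (fun q : Cn n × ℝ => f (c + circleMap 0 1 q.2 • q.1))
        (ball (0 : Cn n) R ×ˢ Ioc 0 (2 * Real.pi)) := by
      refine hf.continuousOn.comp (Continuous.continuousOn (by fun_prop)) fun q hq => ?_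
      have := mem_ball_zero_iff.1 hq.1
      simpa [mem_ball, dist_eq_norm, norm_smul] using this
    exact ENNReal.continuous_ofReal.comp_continuousOn (h1.norm.pow 2)
  have h1 : ∫⁻ _ in ball (0 : Cn n) R, ENNReal.ofReal (‖f c‖ ^ 2) * ENNReal.ofReal (2 * Real.pi) ≤
      ∫⁻ w in ball (0 : Cn n) R, ∫⁻ θ in Ioc 0 (2 * Real.pi),
        ENNReal.ofReal (‖f (c + circleMap 0 1 θ • w)‖ ^ 2) :=
    setLIntegral_mono' measurableSet_ball fun w hw => mv_circle1 hf hw
  rw [lintegral_lintegral_swap hmeas] at h1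
  have h2 : ∀ θ : ℝ, ∫⁻ w in ball (0 : Cn n) R, ENNReal.ofReal (‖f (c + circleMap 0 1 θ • w)‖ ^ 2) =
      ∫⁻ z in ball c R, ENNReal.ofReal (‖f z‖ ^ 2) := fun θ =>
    mv_rot_int1 c R (by simp) fun z => ENNReal.ofReal (‖f z‖ ^ 2)
  simp only [h2, setLIntegral_const, Real.volume_Ioc, sub_zero] at h1
  rw [mul_right_comm] at h1
  exact (ENNReal.mul_le_mul_iff_left (by simpa using Real.pi_pos) ENNReal.ofReal_ne_top).1 h1

theorem finrank_Cn1 (n : ℕ) : Module.finrank ℝ (Cn n) = 2 * n := by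
  rw [← Module.finrank_mul_finrank ℝ ℂ]; simp

theorem volume_ball_Cn (n : ℕ) {r : ℝ} (hr : 0 < r) :
    volume (ball (0 : Cn n) r) = ENNReal.ofReal (r ^ (2 * n)) * volume (ball (0 : Cn n) 1) := by
  rw [Measure.addHaar_ball_of_pos _ _ hr, finrank_Cn1]

/-- Scale invariant form: `‖f c‖ ≤ C B / r ^ n` if `∫_{ball c r} |f|² ≤ B²`. -/
theorem mv_val (n : ℕ) : ∃ C : ℝ, 0 < C ∧ ∀ (f : Cn n → ℂ) (c : Cn n) (r B : ℝ), 0 < r → 0 ≤ B →
    DifferentiableOn ℂ f (ball c r) → ∫⁻ z in ball c r, ENNReal.ofReal (‖f z‖ ^ 2) ≤ ENNReal.ofReal (B ^ 2) →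
    ‖f c‖ ≤ C * B / r ^ n := by
  set v : ℝ := (volume (ball (0 : Cn n) 1)).toReal with hv
  have hfin : volume (ball (0 : Cn n) 1) ≠ ⊤ := measure_ball_lt_top.ne
  have hv0 : 0 < v := ENNReal.toReal_pos (measure_ball_pos _ _ one_pos).ne' hfin
  have hs : 0 < √v := Real.sqrt_pos.2 hv0
  refine ⟨(√v)⁻¹, by positivity, fun f c r B hr hB hf hI => ?_⟩
  have h2 := (mv_flat hf).trans hI
  rw [volume_ball_Cn n hr, ← ENNReal.ofReal_toReal hfin, ← hv, ← ENNReal.ofReal_mul (by positivity),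
    ← ENNReal.ofReal_mul (by positivity), ENNReal.ofReal_le_ofReal_iff (by positivity)] at h2
  rw [le_div_iff₀ (by positivity), ← div_eq_inv_mul, le_div_iff₀ hs]
  refine (pow_le_pow_iff_left₀ (by positivity) hB two_ne_zero).1 ?_
  rw [mul_pow, mul_pow, Real.sq_sqrt hv0.le, ← pow_mul, mul_comm n 2]
  linarith

/-- The `1`-jet: `‖f c‖ ≤ C B / r ^ n`, `‖df c‖ ≤ C B / r ^ (n + 1)` if `∫_{ball c (2 r)} |f|² ≤ B²`. -/
theorem mv_jet (n : ℕ) : ∃ C : ℝ, 0 < C ∧ ∀ (f : Cn n → ℂ) (c : Cn n) (r B : ℝ), 0 < r → 0 ≤ B →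
    DifferentiableOn ℂ f (ball c (2 * r)) →
    ∫⁻ z in ball c (2 * r), ENNReal.ofReal (‖f z‖ ^ 2) ≤ ENNReal.ofReal (B ^ 2) →
    ‖f c‖ ≤ C * B / r ^ n ∧ ‖fderiv ℂ f c‖ ≤ C * B / r ^ (n + 1) := by
  obtain ⟨C, hC, h⟩ := mv_val n
  refine ⟨2 * C, by positivity, fun f c r B hr hB hf hI => ?_⟩
  have h1 : ∀ z ∈ ball c r, ‖f z‖ ≤ C * B / r ^ n := fun z hz => by
    have hsub : ball z r ⊆ ball c (2 * r) := ball_subset_ball' (by have := mem_ball.1 hz; linarith)
    exact h f z r B hr hB (hf.mono hsub) ((lintegral_mono_set hsub).trans hI)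
  have e1 : 0 ≤ C * B / r ^ n := by positivity
  refine ⟨(h1 c (mem_ball_self hr)).trans ?_, ?_⟩
  · rw [mul_assoc, mul_div_assoc 2]; linarith
  · refine (R245.norm_fderiv_le_ball hr (hf.mono (ball_subset_ball (by linarith))) h1).trans (le_of_eq ?_)
    rw [pow_succ]; field_simp

end Crest.Agent.R269
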