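import Crest.Agent.R269.I.LP
import Crest.Agent.R269.I.MV

/-!
# Row 269, block I1: approximate and exact interpolation of jets
-/

set_option autoImplicit false
set_option linter.unusedSectionVars false
set_option linter.unusedVariables false

noncomputable section

namespace Crest.Agent.R269

open Set Metric Filter Topology MeasureTheory Matrix
open Crest.AlgGeometry.ProjEmb
open scoped InnerProductSpace ContDiff

theorem RDom.L2Bd.mono {n : ℕ} {D : RDom n} {h : D.M → ℂ} {φ : D.M → ℝ} {C C' : ℝ} (hL : D.L2Bd h φ C) (hC : C ≤ C') :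
    D.L2Bd h φ C' := fun V ι h1 h2 h3 h4 => (hL V ι h1 h2 h3 h4).trans (ENNReal.ofReal_le_ofReal hC)

/-- A small weight on a small ball forces a small `1`-jet. -/
theorem jet_small (n : ℕ) : ∃ C : ℝ, 0 < C ∧ ∀ (D : RDom n) (h : D.M → ℂ) (φ : D.M → ℝ) (A : ℝ), 0 ≤ A → D.L2Bd h φ A →
    ∀ e, D.IsCh e → ∀ (w : Cn n) (δ M : ℝ), 0 < δ → ball w (2 * δ) ⊆ e.target →
      DifferentiableOn ℂ (h ∘ e.symm) (ball w (2 * δ)) →
      (∀ z ∈ ball w (2 * δ), φ (e.symm z) ≤ (n + 2) * Real.log (δ ^ 2) + M) →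
      ‖h (e.symm w)‖ ≤ C * √(A * Real.exp M) * δ ^ 2 ∧ ‖fderiv ℂ (h ∘ e.symm) w‖ ≤ C * √(A * Real.exp M) * δ := by
  obtain ⟨C, hC, hj⟩ := mv_jet n
  refine ⟨C, hC, fun D h φ A hA hL e he w δ M hδ hb hd hφ => ?_⟩
  set c : ℝ := Real.exp M * (δ ^ (n + 2)) ^ 2 with hc
  have hc0 : 0 ≤ c := by positivity
  have hexp : Real.exp ((n + 2) * Real.log (δ ^ 2) + M) = c := by
    rw [Real.exp_add, hc, mul_comm, ← pow_mul, mul_comm (n + 2) 2, pow_mul]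
    congr 1
    rw [← Real.exp_log (x := (δ ^ 2) ^ (n + 2)) (by positivity), Real.log_pow (δ ^ 2)]
    push_cast; rfl
  have hI : ∫⁻ z in ball w (2 * δ), ENNReal.ofReal (‖(h ∘ e.symm) z‖ ^ 2) ≤
      ENNReal.ofReal ((√(A * Real.exp M) * δ ^ (n + 2)) ^ 2) := by
    calc _ ≤ ∫⁻ z in ball w (2 * δ), ENNReal.ofReal c *
            ENNReal.ofReal (‖h (e.symm z)‖ ^ 2 * Real.exp (-φ (e.symm z))) := by
          refine setLIntegral_mono' measurableSet_ball fun z hz => ?_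
          rw [← ENNReal.ofReal_mul hc0]
          refine ENNReal.ofReal_le_ofReal ?_
          have h1 : 1 ≤ c * Real.exp (-φ (e.symm z)) := by
            rw [← hexp, ← Real.exp_add]
            exact Real.one_le_exp (by linarith [hφ z hz])
          have h2 := mul_le_mul_of_nonneg_left h1 (sq_nonneg ‖h (e.symm z)‖)
          simp only [Function.comp_apply]
          linarith
      _ ≤ ENNReal.ofReal c * ENNReal.ofReal A := by
          rw [lintegral_const_mul' _ _ ENNReal.ofReal_ne_top]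
          gcongr
          exact hL.chart1 he isOpen_ball hb
      _ = _ := by
          rw [← ENNReal.ofReal_mul hc0, mul_pow, Real.sq_sqrt (by positivity), hc]
          congr 1; ring
  obtain ⟨h1, h2⟩ := hj (h ∘ e.symm) w δ _ hδ (by positivity) hd hI
  refine ⟨h1.trans (le_of_eq ?_), h2.trans (le_of_eq ?_)⟩
  · field_simp; ring
  · field_simp; ring

namespace Geo

variable {N n : ℕ} (X : Geo N n) (Λ : Matrix (Fin (n + 1)) (Fin (N + 1)) ℂ)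

/-- Holomorphic functions on `OmS Λ` that come from sections of `m K`. -/
def Ext (m : ℕ) : Submodule ℂ (X.OmS Λ → ℂ) where
  carrier := {f | (X.OmD Λ).HolOn f univ ∧
    ∃ s ∈ X.Sec m 0, ∀ (y : X.OmS Λ) (f' : X.Fi), s f' y.1 = f y * X.dl f' Λ y.1 ^ m}
  add_mem' := by
    rintro f g ⟨hf, s, hs, hs'⟩ ⟨hg, t, ht, ht'⟩
    exact ⟨fun e he => (hf e he).add (hg e he), s + t, Submodule.add_mem _ hs ht, fun y f' => by
      simp [hs', ht', add_mul]⟩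
  zero_mem' := ⟨fun e he => differentiableOn_const 0, 0, Submodule.zero_mem _, by simp⟩
  smul_mem' := by
    rintro c f ⟨hf, s, hs, hs'⟩
    exact ⟨fun e he => (hf e he).const_smul c, c • s, Submodule.smul_mem _ c hs, fun y f' => by
      simp [hs', mul_assoc]⟩

variable {X Λ}

/-- One application of Hörmander's theorem and of the extension theorem. -/
theorem horm_ext (hH : Horm n) {a ε c : ℝ} (ha : 0 < a) {u} (hu : X.VSub a (-(n + 1) * a - ε) u c) {m : ℕ} (hm : 1 ≤ m)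
    (hr : 2 * ((n : ℝ) + 2) + 1 ≤ (m - 1) / a * ε) (x₁ x₂ : X.OmS Λ) {g : X.OmS Λ → ℂ} {K : Set (X.OmS Λ)}
    (hg : (X.OmD Λ).SmOn g univ) (hgc : HasCompactSupport g) (hK : IsCompact K) (hhol : (X.OmD Λ).HolOn g Kᶜ)
    (h₁ : x₁ ∉ K) (h₂ : x₂ ∉ K) :
    ∃ (A r : ℝ) (ψ : X.OmS Λ → ℝ), 0 ≤ A ∧ Continuous ψ ∧ ∀ δ : ℝ, 0 < δ → δ ≤ 1 → ∃ f ∈ X.Ext Λ m, ∃ φ : X.OmS Λ → ℝ,
      (∀ x, φ x ≤ ψ x + X.sw Λ x₁ x₂ (n + 2) r δ x) ∧ (X.OmD Λ).L2Bd (f - g) φ A := by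
  set t : ℝ := (m - 1) / a with ht
  have hm' : (1 : ℝ) ≤ m := by exact_mod_cast hm
  have ht0 : 0 ≤ t := div_nonneg (by linarith) ha.le
  set b : ℝ := -(n + 1) * a - ε with hb
  set k : ℝ := n + 2 with hk
  have hk0 : 0 ≤ k := by positivity
  set r : ℝ := t * ε - 2 * k with hr'
  have hr1 : 1 ≤ r := by linarith
  obtain ⟨Bu, hBu⟩ := hu.bdd
  have hO : IsOpen ({x₁, x₂}ᶜ : Set (X.OmS Λ)) := (toFinite _).isClosed.isOpen_compl
  obtain ⟨W, K', hW, hK', hKW, hWK, hKO⟩ := (X.OmD Λ).exists_nhd hK hO fun x hx => by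
    rintro (rfl | rfl)
    exacts [h₁ hx, h₂ hx]
  have h₁' : x₁ ∉ K' := fun h => hKO h (by simp)
  have h₂' : x₂ ∉ K' := fun h => hKO h (by simp)
  obtain ⟨lam, hlam, hl⟩ := X.exists_lam Λ hK'
  obtain ⟨C, hC⟩ := hH (X.OmD Λ) _ (X.exh_pot Λ) g K W lam hg hgc hK hW hKW hhol hlam
  obtain ⟨B₁, hB₁⟩ := hK'.exists_bound_of_continuousOn (X.continuous_pot Λ a b).continuousOn
  obtain ⟨B₂, hB₂⟩ := sw_lower x₁ x₂ hk0 r hK' h₁' h₂'
  obtain ⟨C₃, hC₃⟩ := sw_upper x₁ x₂ hk0 r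
  refine ⟨max C 0 * Real.exp (t * (B₁ + Bu) + B₂), r, fun x => t * (X.pot Λ a b x.1 + Bu), by positivity,
    continuous_const.mul ((X.continuous_pot Λ a b).add continuous_const), fun δ hδ hδ1 => ?_⟩
  set φ : X.OmS Λ → ℝ := fun x => t * (X.pot Λ a b x.1 + u x.1) + X.sw Λ x₁ x₂ k r δ x with hφ
  have hwt : (X.OmD Λ).Wt φ := ((hu.wt Λ).const_mul1 ht0).add_cont1 (continuous_sw x₁ x₂ k r hδ)
  have hv0 := (hu.vbm Λ).const_mul1 ht0
  have hv1 : (X.OmD Λ).VBM φ univ fun _ => 0 := by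
    refine (hv0.add_smooth (c' := fun _ => 0) fun e he w hw _ => ?_).mono1 subset_rfl fun v => by simp
    obtain ⟨h1, h2⟩ := levi_sw x₁ x₂ (r := r) hk0 hδ he hw
    exact ⟨h1, fun v => Finset.sum_nonneg fun j _ =>
      (mul_nonneg (by linarith) (levi_pot01_nonneg he hw _)).trans (h2 _)⟩
  have hv2 : (X.OmD Λ).VBM φ W fun v => lam * ∑ j, ‖v j‖ ^ 2 := by
    refine ((hv0.mono1 (subset_univ W) fun _ => le_rfl).add_smooth (c' := fun v => lam * ∑ j, ‖v j‖ ^ 2)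
      fun e he w hw hw' => ?_).mono1 subset_rfl fun v => by simp
    obtain ⟨h1, h2⟩ := levi_sw x₁ x₂ (r := r) hk0 hδ he hw
    refine ⟨h1, fun v => ?_⟩
    rw [Finset.mul_sum]
    refine Finset.sum_le_sum fun j _ => le_trans ?_ (h2 _)
    have h3 := hl e he (e.symm w) ⟨hWK hw', e.map_target hw⟩ (v j)
    rw [e.right_inv hw] at h3
    exact h3.trans (le_mul_of_one_le_left (levi_pot01_nonneg he hw _) hr1)
  obtain ⟨f, hf, hL⟩ := hC φ hwt hv1 hv2 (t * (B₁ + Bu) + B₂) fun x hx => by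
    have a1 := (abs_le.1 (hB₁ x (hWK hx))).1
    have a2 := (abs_le.1 (hBu x.1 x.2.1)).1
    have a3 := hB₂ δ x (hWK hx)
    have := mul_le_mul_of_nonneg_left (add_le_add a1 a2) ht0
    simp only [hφ]
    linarith
  have hup : ∀ x : X.OmS Λ, t * (X.pot Λ a b x.1 + u x.1) ≤ t * (X.pot Λ a b x.1 + Bu) := fun x =>
    mul_le_mul_of_nonneg_left (by linarith [(abs_le.1 (hBu x.1 x.2.1)).2]) ht0
  refine ⟨f, ⟨hf, X.stE Λ hm 0 hf hgc (φ := φ) (C := t * Bu + C₃) (fun y => ?_) hL⟩, φ,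
    fun x => by simp only [hφ]; linarith [hup x],
    hL.mono (mul_le_mul_of_nonneg_right (le_max_left _ _) (Real.exp_pos _).le)⟩
  have a1 := hup y
  have a2 := hC₃ δ hδ hδ1 y
  have hta : t * a = m - 1 := by rw [ht]; field_simp
  have a3 : t * X.pot Λ a b y.1 + (2 * k + r) * Real.log (‖y.1‖ ^ 2) =
      X.pot Λ (m - 1) (((0 : ℤ) : ℝ) - (m - 1) * (n + 1)) y.1 := by
    simp only [pot, hb, hr', ← hta]
    push_cast; ring
  simp only [hφ]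
  linarith

/-- Approximate interpolation. -/
theorem apx (hH : Horm n) {a ε c : ℝ} (ha : 0 < a) {u} (hu : X.VSub a (-(n + 1) * a - ε) u c) {m : ℕ} (hm : 1 ≤ m)
    (hr : 2 * ((n : ℝ) + 2) + 1 ≤ (m - 1) / a * ε) (x₁ x₂ : X.OmS Λ) {g : X.OmS Λ → ℂ} {K : Set (X.OmS Λ)}
    (hg : (X.OmD Λ).SmOn g univ) (hgc : HasCompactSupport g) (hK : IsCompact K) (hhol : (X.OmD Λ).HolOn g Kᶜ)
    (h₁ : x₁ ∉ K) (h₂ : x₂ ∉ K) {e : OpenPartialHomeomorph (X.OmS Λ) (Cn n)} (he : (X.OmD Λ).IsCh e)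
    (hx : x₁ ∈ e.source) {η : ℝ} (hη : 0 < η) :
    ∃ f ∈ X.Ext Λ m, ‖f x₁ - g x₁‖ < η ∧ ‖fderiv ℂ (f ∘ e.symm) (e x₁) - fderiv ℂ (g ∘ e.symm) (e x₁)‖ < η ∧
      ‖f x₂ - g x₂‖ < η := by
  obtain ⟨A, r, ψ, hA, hψ, hf⟩ := horm_ext hH ha hu hm hr x₁ x₂ hg hgc hK hhol h₁ h₂
  obtain ⟨C, hC, hj⟩ := jet_small n
  have hk0 : (0 : ℝ) ≤ n + 2 := by positivity
  have hKo : IsOpen Kᶜ := hK.isClosed.isOpen_compl
  -- the local statement at a pole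
  have key : ∀ (y₁ y₂ : X.OmS Λ), y₁ ∉ K → ∀ {e : OpenPartialHomeomorph (X.OmS Λ) (Cn n)}, (X.OmD Λ).IsCh e →
      y₁ ∈ e.source → ∀ᶠ δ in 𝓝[>] (0 : ℝ), ∀ f ∈ X.Ext Λ m, ∀ φ : X.OmS Λ → ℝ,
        (∀ x, φ x ≤ ψ x + X.sw Λ y₁ y₂ (n + 2) r δ x) → (X.OmD Λ).L2Bd (f - g) φ A →
        ‖f y₁ - g y₁‖ < η ∧ ‖fderiv ℂ (f ∘ e.symm) (e y₁) - fderiv ℂ (g ∘ e.symm) (e y₁)‖ < η := by
    intro y₁ y₂ hy e he hx
    obtain ⟨M, δ₀, hδ₀, hM⟩ := sw_near y₁ y₂ hk0 r he hx hψ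
    obtain ⟨ρ, hρ, hb⟩ := Metric.mem_nhds_iff.1 (RDom.pre_mem_nhds (D := X.OmD Λ) e hKo hx hy)
    set Q : ℝ := C * √(A * Real.exp M) with hQ
    have hQ0 : 0 ≤ Q := by positivity
    have ev : ∀ᶠ δ in 𝓝 (0 : ℝ), δ < δ₀ ∧ δ < ρ / 2 ∧ δ < 1 ∧ Q * δ < η := by
      refine (gt_mem_nhds hδ₀).and ((gt_mem_nhds (by positivity)).and ((gt_mem_nhds one_pos).and ?_))
      have : Continuous fun δ : ℝ => Q * δ := by fun_prop
      exact this.continuousAt.eventually (gt_mem_nhds (by simpa using hη))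
    filter_upwards [mem_nhdsWithin_of_mem_nhds ev, self_mem_nhdsWithin] with δ ⟨a1, a2, a3, a4⟩ (hδ : 0 < δ) f hf φ hφ hL
    have hsub : ball (e y₁) (2 * δ) ⊆ e.target ∩ e.symm ⁻¹' Kᶜ := (ball_subset_ball (by linarith)).trans hb
    have df : ∀ z ∈ ball (e y₁) (2 * δ), DifferentiableAt ℂ (f ∘ e.symm) z := fun z hz =>
      hf.1.differentiableAt isOpen_univ he (hsub hz).1 (mem_univ _)
    have dg : ∀ z ∈ ball (e y₁) (2 * δ), DifferentiableAt ℂ (g ∘ e.symm) z := fun z hz =>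
      hhol.differentiableAt hKo he (hsub hz).1 (hsub hz).2
    have hc : e y₁ ∈ ball (e y₁) (2 * δ) := mem_ball_self (by positivity)
    obtain ⟨b1, b2⟩ := hj (X.OmD Λ) (f - g) φ A hA hL e he (e y₁) δ M hδ (fun z hz => (hsub hz).1)
      (fun z hz => ((df z hz).sub (dg z hz)).differentiableWithinAt)
      fun z hz => (hφ _).trans (hM δ hδ a1.le z hz)
    rw [e.left_inv hx] at b1
    have b3 : fderiv ℂ ((f - g) ∘ e.symm) (e y₁) = fderiv ℂ (f ∘ e.symm) (e y₁) - fderiv ℂ (g ∘ e.symm) (e y₁) :=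
      fderiv_sub (df _ hc) (dg _ hc)
    refine ⟨lt_of_le_of_lt b1 (lt_of_le_of_lt ?_ a4), by rw [← b3]; exact lt_of_le_of_lt b2 a4⟩
    exact mul_le_mul_of_nonneg_left (by nlinarith) hQ0
  obtain ⟨e₂, he₂, hx₂⟩ := (X.OmD Λ).exists_ch1 x₂
  have ev1 : ∀ᶠ δ in 𝓝[>] (0 : ℝ), δ < 1 := mem_nhdsWithin_of_mem_nhds (gt_mem_nhds one_pos)
  obtain ⟨δ, ⟨⟨k1, k2⟩, hδ1⟩, hδ⟩ :=
    ((((key x₁ x₂ h₁ he hx).and (key x₂ x₁ h₂ he₂ hx₂)).and ev1).and self_mem_nhdsWithin).exists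
  obtain ⟨f, hfE, φ, hφ, hL⟩ := hf δ hδ hδ1.le
  obtain ⟨c1, c2⟩ := k1 f hfE φ hφ hL
  exact ⟨f, hfE, c1, c2, (k2 f hfE φ (by rw [sw_comm]; exact hφ) hL).1⟩

/-- Exact interpolation: the jets of `Ext` form a subspace of a finite dimensional space, hence a closed set. -/
theorem exact_jet (hH : Horm n) {a ε c : ℝ} (ha : 0 < a) {u} (hu : X.VSub a (-(n + 1) * a - ε) u c) {m : ℕ} (hm : 1 ≤ m)
    (hr : 2 * ((n : ℝ) + 2) + 1 ≤ (m - 1) / a * ε) (x₁ x₂ : X.OmS Λ) {g : X.OmS Λ → ℂ} {K : Set (X.OmS Λ)}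
    (hg : (X.OmD Λ).SmOn g univ) (hgc : HasCompactSupport g) (hK : IsCompact K) (hhol : (X.OmD Λ).HolOn g Kᶜ)
    (h₁ : x₁ ∉ K) (h₂ : x₂ ∉ K) {e : OpenPartialHomeomorph (X.OmS Λ) (Cn n)} (he : (X.OmD Λ).IsCh e)
    (hx : x₁ ∈ e.source) :
    ∃ f ∈ X.Ext Λ m, f x₁ = g x₁ ∧ fderiv ℂ (f ∘ e.symm) (e x₁) = fderiv ℂ (g ∘ e.symm) (e x₁) ∧ f x₂ = g x₂ := by
  have df : ∀ f : X.Ext Λ m, DifferentiableAt ℂ (f.1 ∘ e.symm) (e x₁) := fun f =>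
    f.2.1.differentiableAt isOpen_univ he (e.map_source hx) (mem_univ _)
  let J : X.Ext Λ m →ₗ[ℂ] ℂ × (Cn n →L[ℂ] ℂ) × ℂ :=
    { toFun := fun f => (f.1 x₁, fderiv ℂ (f.1 ∘ e.symm) (e x₁), f.1 x₂)
      map_add' := fun f f' => Prod.ext rfl (Prod.ext (fderiv_add (df f) (df f')) rfl)
      map_smul' := fun c f => Prod.ext rfl (Prod.ext (fderiv_const_smul (df f) c) rfl) }
  have hcl : IsClosed (LinearMap.range J : Set (ℂ × (Cn n →L[ℂ] ℂ) × ℂ)) := Submodule.closed_of_finiteDimensional _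
  have : (g x₁, fderiv ℂ (g ∘ e.symm) (e x₁), g x₂) ∈ (LinearMap.range J : Set (ℂ × (Cn n →L[ℂ] ℂ) × ℂ)) := by
    rw [← hcl.closure_eq, Metric.mem_closure_iff]
    intro η hη
    obtain ⟨f, hf, c1, c2, c3⟩ := apx hH ha hu hm hr x₁ x₂ hg hgc hK hhol h₁ h₂ he hx hη
    refine ⟨J ⟨f, hf⟩, ⟨_, rfl⟩, ?_⟩
    rw [dist_comm, Prod.dist_eq, Prod.dist_eq, dist_eq_norm, dist_eq_norm, dist_eq_norm]
    exact max_lt c1 (max_lt c2 c3)
  obtain ⟨f, hf⟩ := this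
  exact ⟨f.1, f.2, congrArg (·.1) hf, congrArg (·.2.1) hf, congrArg (·.2.2) hf⟩

end Geo

end Crest.Agent.R269
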