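import Crest.Agent.R269.I.Apx

/-!
# Row 269, block I1: separation of points and tangents (statements FROZEN; recipe in Blueprint.lean)
-/

set_option autoImplicit false
set_option linter.unusedSectionVars false
set_option linter.unusedVariables false

noncomputable section

namespace Crest.Agent.R269

open Set Metric Filter Topology MeasureTheory Matrix
open Crest.AlgGeometry.ProjEmb
open scoped InnerProductSpace ContDiff

theorem ell_smul' {N n : ℕ} (Λ : Matrix (Fin (n + 1)) (Fin (N + 1)) ℂ) (t : ℂ) (y : Cn (N + 1)) :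
    ell Λ (t • y) = t * ell Λ y := by
  simp [ell, mulVec_smul]

namespace Geo

variable {N n : ℕ} {X : Geo N n} {Λ : Matrix (Fin (n + 1)) (Fin (N + 1)) ℂ}

theorem exists_OmS {y : Cn (N + 1)} (hy : y ∈ X.Y) (h0 : ell Λ y ≠ 0) (hf : ∃ f, X.dl f Λ y ≠ 0) :
    ∃ x : X.OmS Λ, y = ell Λ y • x.1 := by
  obtain ⟨f, hf⟩ := hf
  refine ⟨⟨(ell Λ y)⁻¹ • y, X.smul_mem_Y hy (inv_ne_zero h0), by rw [ell_smul', inv_mul_cancel₀ h0], f, ?_⟩, ?_⟩
  · rw [dl_smul]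
    exact mul_ne_zero (pow_ne_zero _ (inv_ne_zero h0)) hf
  · simp [smul_smul, h0]

/-- Interpolation with an entire function `p` of the flat coordinates at `x₁`, and with `0` at `x₂ ≠ x₁`. -/
theorem interp1 (hH : Horm n) {a ε c : ℝ} (ha : 0 < a) {u} (hu : X.VSub a (-(n + 1) * a - ε) u c) {m : ℕ} (hm : 1 ≤ m)
    (hr : 2 * ((n : ℝ) + 2) + 1 ≤ (m - 1) / a * ε) (x₁ x₂ : X.OmS Λ) {p : Cn n → ℂ} (hp : Differentiable ℂ p)
    (hp' : ContDiff ℝ ∞ p) {e : OpenPartialHomeomorph (X.OmS Λ) (Cn n)} (he : (X.OmD Λ).IsCh e) (hx : x₁ ∈ e.source) :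
    ∃ f ∈ X.Ext Λ m, f x₁ = p (e x₁) ∧ fderiv ℂ (f ∘ e.symm) (e x₁) = fderiv ℂ p (e x₁) ∧ (x₂ ≠ x₁ → f x₂ = 0) := by
  have hO : IsOpen (({x₂} \ {x₁} : Set (X.OmS Λ))ᶜ) := (toFinite _).isClosed.isOpen_compl
  obtain ⟨g, K, hg, hgc, hK, hhol, h₁, hKO, h0, hev⟩ := (X.OmD Λ).exists_bump x₁ hO (by simp) hp hp'
  have h₂ : x₂ ∉ K := by
    by_cases h : x₂ = x₁
    · rwa [h]
    · exact fun hx => hKO hx ⟨rfl, h⟩
  obtain ⟨f, hf, c1, c2, c3⟩ := exact_jet hH ha hu hm hr x₁ x₂ hg hgc hK hhol h₁ h₂ he hx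
  refine ⟨f, hf, by rw [c1, hev.self_of_nhds, he _ hx], ?_, fun h => by rw [c3, h0 x₂ fun h' => h' ⟨rfl, h⟩]⟩
  rw [c2]
  refine Filter.EventuallyEq.fderiv_eq ?_
  have hc := e.continuousAt_symm (e.map_source hx)
  rw [ContinuousAt, e.left_inv hx] at hc
  filter_upwards [hc.eventually hev, e.open_target.mem_nhds (e.map_source hx)] with z h1 h2
  exact h1.trans (congrArg p (he.π_symm h2))

theorem sec_smul {m : ℕ} {s : X.Fi → Cn (N + 1) → ℂ} (hs : s ∈ X.Sec m 0) (f : X.Fi) {y : Cn (N + 1)} (hy : y ∈ X.Y)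
    {t : ℂ} (ht : t ≠ 0) : s f (t • y) = t ^ (0 + m * X.dK) * s f y := (hs.1 f).2.1 y hy t ht

end Geo

theorem stI1 {N n : ℕ} (X : Geo N n) (hH : Horm n) {a ε c : ℝ} (ha : 0 < a) (hε : 0 < ε) {u}
    (hu : X.VSub a (-(n + 1) * a - ε) u c) : ∃ m, 1 ≤ m ∧ X.SEP m := by
  obtain ⟨m', hm'⟩ := exists_nat_ge ((2 * ((n : ℝ) + 2) + 1) * a / ε)
  have hm : 1 ≤ m' + 1 := by omega
  have hr : 2 * ((n : ℝ) + 2) + 1 ≤ ((m' + 1 : ℕ) - 1) / a * ε := by
    rw [div_le_iff₀ hε] at hm'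
    rw [div_mul_eq_mul_div, le_div_iff₀ ha]
    push_cast
    linarith
  generalize m' + 1 = m at hm hr
  refine ⟨m, hm, fun y hy => ?_, fun y hy y' hy' hne => ?_, fun y hy f hf lam hlam => ?_⟩
  · obtain ⟨Λ, h0, -, h1, -⟩ := X.exists_Lambda hy hy
    obtain ⟨x, hx⟩ := Geo.exists_OmS hy h0 h1
    obtain ⟨e, he, hxe⟩ := (X.OmD Λ).exists_ch1 x
    obtain ⟨F, ⟨-, s, hs, hsF⟩, c1, -, -⟩ := Geo.interp1 hH ha hu hm hr x x (p := fun _ => 1) (differentiable_const _)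
      contDiff_const he hxe
    obtain ⟨f, hf⟩ := x.2.2.2
    refine ⟨s, hs, f, ?_⟩
    rw [hx, Geo.sec_smul hs f x.2.1 h0, hsF, c1, one_mul]
    exact mul_ne_zero (zpow_ne_zero _ h0) (pow_ne_zero _ hf)
  · obtain ⟨Λ, h0, h0', h1, h1'⟩ := X.exists_Lambda hy hy'
    obtain ⟨x, hx⟩ := Geo.exists_OmS hy h0 h1
    obtain ⟨x', hx'⟩ := Geo.exists_OmS hy' h0' h1'
    obtain ⟨e, he, hxe⟩ := (X.OmD Λ).exists_ch1 x'
    obtain ⟨F, ⟨-, s, hs, hsF⟩, c1, -, c3⟩ := Geo.interp1 hH ha hu hm hr x' x (p := fun _ => 1) (differentiable_const _)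
      contDiff_const he hxe
    have hxx : x ≠ x' := by
      rintro rfl
      refine hne (ell Λ y' * (ell Λ y)⁻¹) ?_
      rw [mul_smul]
      nth_rewrite 2 [hx]
      rw [smul_smul (ell Λ y)⁻¹, inv_mul_cancel₀ h0, one_smul]
      exact hx'
    obtain ⟨f, hf⟩ := x'.2.2.2
    refine ⟨s, hs, fun f => ?_, f, ?_⟩
    · rw [hx, Geo.sec_smul hs f x.2.1 h0, hsF, c3 hxx, zero_mul, mul_zero]
    · rw [hx', Geo.sec_smul hs f x'.2.1 h0', hsF, c1, one_mul]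
      exact mul_ne_zero (zpow_ne_zero _ h0') (pow_ne_zero _ hf)
  · obtain ⟨Λ, h0, -, ⟨f', hf'⟩, -⟩ := X.exists_Lambda hy hy
    obtain ⟨β, hβ⟩ : ∃ β, X.dl f (sel β) y ≠ 0 := by
      by_contra h
      push Not at h
      exact hf (by ext β; simp [Geo.dv, h β])
    have hfΛ : X.dl f Λ y ≠ 0 := fun h => by
      have := X.dl_mul_dl hy f f' Λ (sel β)
      rw [h, zero_mul] at this
      exact mul_ne_zero hf' hβ this.symm
    obtain ⟨x, hx⟩ := Geo.exists_OmS hy h0 ⟨f, hfΛ⟩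
    set l := ell Λ y with hl
    have hfx : X.dl f Λ x.1 ≠ 0 := fun h => hfΛ (by rw [hx, Geo.dl_smul, h, mul_zero])
    obtain ⟨e, he, hxe⟩ := (X.OmD Λ).exists_ch1 x
    obtain ⟨C, -, hCB, hCσ⟩ := X.chart_of_isCh Λ he
    have hw : e x ∈ C.B := hCB ▸ e.map_source hxe
    have hσx : C.σ (e x) = x.1 := by rw [hCσ, e.left_inv hxe]
    set α : ℂ := l ^ (0 + m * X.dK) * X.dl f Λ x.1 ^ m with hα
    have hα0 : α ≠ 0 := mul_ne_zero (zpow_ne_zero _ h0) (pow_ne_zero _ hfx)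
    set μ : Cn n →L[ℂ] ℂ := (l / α) • lam.comp (fderiv ℂ C.σ (e x)) with hμ
    have hp : ∀ w, HasFDerivAt (fun w => μ (w - e x)) μ w := fun w =>
      (μ.hasFDerivAt.comp w ((hasFDerivAt_id w).sub_const (e x))).congr_fderiv (by simp)
    obtain ⟨F, ⟨hF, s, hs, hsF⟩, c1, c2, -⟩ := Geo.interp1 hH ha hu hm hr x x (p := fun w => μ (w - e x))
      (fun w => (hp w).differentiableAt)
      ((μ.restrictScalars ℝ).contDiff.comp (contDiff_id.sub contDiff_const)) he hxe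
    rw [(hp _).fderiv] at c2
    simp only [sub_self, map_zero] at c1
    obtain ⟨g, hg, hsg⟩ := (hs.1 f).1 y hy
    have hg0 : g y = 0 := by
      rw [← hsg.eq_of_nhdsWithin hy, hx, Geo.sec_smul hs f x.2.1 h0, hsF, c1, zero_mul, mul_zero]
    refine ⟨s, hs, g, hg, hsg, hg0, fun v hv => ?_⟩
    rw [hx, X.T_smul _ h0, ← hσx] at hv
    obtain ⟨τ, e', hv⟩ := C.exists_tan hw hv
    -- the curve `γ`
    set q : ℂ → Cn n := fun ζ => e x + ζ • l⁻¹ • e' with hq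
    have hq0 : q 0 = e x := by simp [hq]
    have hqd : HasDerivAt q (l⁻¹ • e') 0 :=
      (((hasDerivAt_id (0 : ℂ)).smul_const (l⁻¹ • e')).const_add (e x)).congr_deriv (by simp)
    have hσd : HasFDerivAt C.σ (fderiv ℂ C.σ (e x)) (q 0) := by
      rw [hq0]; exact (C.an _ hw).differentiableAt.hasFDerivAt
    have hc : HasDerivAt (fun ζ : ℂ => l + ζ * τ) τ 0 := by
      simpa using ((hasDerivAt_id (0 : ℂ)).mul_const τ).const_add l
    have hσq := hσd.comp_hasDerivAt 0 hqd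
    have hγ : HasDerivAt (fun ζ : ℂ => (l + ζ * τ) • C.σ (q ζ)) v 0 := by
      refine (hc.smul hσq).congr_deriv ?_
      simp [hq0, hv, smul_smul, h0]
    have hγ0 : (l + (0 : ℂ) * τ) • C.σ (q 0) = y := by rw [hq0, hσx, zero_mul, add_zero, ← hx]
    have e1 : ∀ᶠ ζ in 𝓝 (0 : ℂ), q ζ ∈ C.B := hqd.continuousAt.eventually (by rw [hq0]; exact C.isOpen.mem_nhds hw)
    have e2 : ∀ᶠ ζ in 𝓝 (0 : ℂ), l + ζ * τ ≠ 0 := hc.continuousAt.eventually_ne (by simpa using h0)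
    have ht : Tendsto (fun ζ : ℂ => (l + ζ * τ) • C.σ (q ζ)) (𝓝 0) (𝓝[X.Y] y) := by
      refine tendsto_nhdsWithin_iff.2 ⟨hγ0 ▸ hγ.continuousAt, ?_⟩
      filter_upwards [e1, e2] with ζ h1 h2 using X.smul_mem_Y (C.mem h1) h2
    have hFd : HasFDerivAt (F ∘ e.symm) μ (q 0) := by
      rw [hq0, ← c2]
      exact (hF.differentiableAt isOpen_univ he (e.map_source hxe) (mem_univ _)).hasFDerivAt
    have hFq := hFd.comp_hasDerivAt 0 hqd
    set A : ℂ → ℂ := fun ζ => (l + ζ * τ) ^ (0 + m * X.dK) * X.dl f Λ (C.σ (q ζ)) ^ m with hA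
    have hAd : DifferentiableAt ℂ A 0 :=
      (hc.differentiableAt.zpow (Or.inl (by simpa using h0))).mul
        (((X.analyticAt_dl f Λ _).differentiableAt.comp (0 : ℂ) hσq.differentiableAt).pow m)
    have hA0 : A 0 = α := by simp only [hA, hα, hq0, hσx, zero_mul, add_zero]
    have hev : (fun ζ : ℂ => g ((l + ζ * τ) • C.σ (q ζ))) =ᶠ[𝓝 0] fun ζ => A ζ * (F ∘ e.symm) (q ζ) := by
      filter_upwards [ht.eventually hsg, e1, e2] with ζ h1 h2 h3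
      rw [← h1, Geo.sec_smul hs f (C.mem h2) h3, hA]
      simp only [hCσ, hsF, Function.comp_apply]
      ring
    have d1 : HasDerivAt (fun ζ : ℂ => g ((l + ζ * τ) • C.σ (q ζ))) (fderiv ℂ g y v) 0 := by
      have : HasFDerivAt g (fderiv ℂ g y) ((l + (0 : ℂ) * τ) • C.σ (q 0)) := by
        rw [hγ0]; exact hg.differentiableAt.hasFDerivAt
      exact this.comp_hasDerivAt 0 hγ
    have d2 := (hAd.hasDerivAt.mul hFq).congr_of_eventuallyEq hev
    have hlx : lam x.1 = 0 := by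
      rw [hx, map_smul, smul_eq_mul] at hlam
      exact (mul_eq_zero.1 hlam).resolve_left h0
    rw [d1.unique d2, hA0, hv]
    simp only [Function.comp_apply, hq0, e.left_inv hxe, c1, mul_zero, zero_add, hμ, map_add, map_smul, hσx, hlx,
      smul_eq_mul, add_zero, _root_.smul_apply, ContinuousLinearMap.comp_apply]
    field_simp

end Crest.Agent.R269
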