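import Crest.Agent.R269.A.Levi

/-!
# Row 269, block I: general tools on Riemann domains (flat charts, weights, bumps)
-/

set_option autoImplicit false
set_option linter.unusedSectionVars false
set_option linter.unusedVariables false

noncomputable section

namespace Crest.Agent.R269

open Set Metric Filter Topology MeasureTheory Matrix
open Crest.AlgGeometry.ProjEmb
open scoped InnerProductSpace ContDiff ENNReal

namespace RDom

variable {n : ℕ} {D : RDom n}

theorem exists_ch1 (D : RDom n) (x : D.M) : ∃ e : OpenPartialHomeomorph D.M (Cn n), D.IsCh e ∧ x ∈ e.source := by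
  obtain ⟨e, hx, he⟩ := D.loc x
  exact ⟨e, fun y _ => by rw [he], hx⟩

theorem continuous_π (D : RDom n) : Continuous D.π := D.loc.continuous

theorem IsCh.π_symm {e : OpenPartialHomeomorph D.M (Cn n)} (he : D.IsCh e) {w : Cn n} (hw : w ∈ e.target) :
    D.π (e.symm w) = w := by
  rw [← he _ (e.map_target hw), e.right_inv hw]

theorem isOpen_pre (e : OpenPartialHomeomorph D.M (Cn n)) {W : Set D.M} (hW : IsOpen W) :
    IsOpen (e.target ∩ e.symm ⁻¹' W) := e.isOpen_inter_preimage_symm hW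

theorem pre_mem_nhds (e : OpenPartialHomeomorph D.M (Cn n)) {W : Set D.M} (hW : IsOpen W) {x : D.M}
    (hx : x ∈ e.source) (hxW : x ∈ W) : e.target ∩ e.symm ⁻¹' W ∈ 𝓝 (e x) :=
  (isOpen_pre e hW).mem_nhds ⟨e.map_source hx, by simpa [e.left_inv hx] using hxW⟩

/-- Two flat charts have the same inverse near a common point. -/
theorem IsCh.symm_eventuallyEq {e e' : OpenPartialHomeomorph D.M (Cn n)} (he : D.IsCh e) (he' : D.IsCh e')
    {x : D.M} (hx : x ∈ e.source) (hx' : x ∈ e'.source) : e.symm =ᶠ[𝓝 (e x)] e'.symm := by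
  filter_upwards [pre_mem_nhds e e'.open_source hx hx'] with w hw
  have h1 : e' (e.symm w) = w := by rw [he' _ hw.2, he.π_symm hw.1]
  rw [← e'.left_inv hw.2, h1]

theorem Wt.const_mul1 {φ : D.M → ℝ} (h : D.Wt φ) {t : ℝ} (ht : 0 ≤ t) : D.Wt fun x => t * φ x := by
  refine ⟨?_, fun x => ?_⟩
  · have hc : Continuous fun s : ℝ => t * s := by fun_prop
    exact hc.comp_upperSemicontinuous h.usc fun a b hab => mul_le_mul_of_nonneg_left hab ht
  · obtain ⟨B, hB⟩ := h.lb x
    refine ⟨t * B, hB.mono fun y hy => ?_⟩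
    have := mul_le_mul_of_nonneg_left hy ht
    linarith

theorem Wt.add_cont1 {φ ψ : D.M → ℝ} (h : D.Wt φ) (hψ : Continuous ψ) : D.Wt fun x => φ x + ψ x := by
  refine ⟨h.usc.add hψ.upperSemicontinuous, fun x => ?_⟩
  obtain ⟨B, hB⟩ := h.lb x
  have h2 : ∀ᶠ y in 𝓝 x, ψ x - 1 < ψ y := hψ.continuousAt.eventually (lt_mem_nhds (by linarith))
  refine ⟨B - (ψ x - 1), ?_⟩
  filter_upwards [hB, h2] with y h1 h2
  linarith

theorem VBM.mono1 {φ : D.M → ℝ} {W W' : Set D.M} {c c' : (Fin n → Cn n) → ℝ} (h : D.VBM φ W c) (hW : W' ⊆ W)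
    (hc : ∀ v, c' v ≤ c v) : D.VBM φ W' c' :=
  fun e he => (h e he).mono (fun w hw => ⟨hw.1, hW hw.2⟩) hc

theorem VBM.const_mul1 {φ : D.M → ℝ} {W : Set D.M} {c : (Fin n → Cn n) → ℝ} (h : D.VBM φ W c) {t : ℝ} (ht : 0 ≤ t) :
    D.VBM (fun x => t * φ x) W fun v => t * c v :=
  fun e he => (h e he).const_mul ht

theorem VBM.add_smooth {φ ψ : D.M → ℝ} {W : Set D.M} {c c' : (Fin n → Cn n) → ℝ} (h : D.VBM φ W c)
    (hψ : ∀ e, D.IsCh e → ∀ w ∈ e.target, e.symm w ∈ W → ContDiffAt ℝ 2 (fun z => ψ (e.symm z)) w ∧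
      ∀ v : Fin n → Cn n, c' v ≤ ∑ j, levi (fun z => ψ (e.symm z)) w (v j)) :
    D.VBM (fun x => φ x + ψ x) W fun v => c v + c' v :=
  fun e he => (h e he).add_smooth fun w hw => hψ e he w hw.1 hw.2

/-- The `L²` bound in a flat chart. -/
theorem L2Bd.chart1 {h : D.M → ℂ} {φ : D.M → ℝ} {C : ℝ} (hL : D.L2Bd h φ C) {e : OpenPartialHomeomorph D.M (Cn n)}
    (he : D.IsCh e) {V : Set (Cn n)} (hV : IsOpen V) (hVe : V ⊆ e.target) :
    ∫⁻ w in V, ENNReal.ofReal (‖h (e.symm w)‖ ^ 2 * Real.exp (-φ (e.symm w))) ≤ ENNReal.ofReal C := by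
  have h1 : ∀ w ∈ V, D.π ∘ e.symm =ᶠ[𝓝 w] id := fun w hw => by
    filter_upwards [hV.mem_nhds hw] with z hz
    exact he.π_symm (hVe hz)
  refine le_of_eq_of_le ?_ (hL V e.symm hV (e.continuousOn_symm.mono hVe) (e.symm.injOn.mono hVe)
    fun w hw => ((differentiableAt_id.congr_of_eventuallyEq (h1 w hw))).differentiableWithinAt)
  refine setLIntegral_congr_fun hV.measurableSet fun w hw => ?_
  simp only [(h1 w hw).fderiv_eq, fderiv_id]
  simp

theorem HolOn.mono {g : D.M → ℂ} {W W' : Set D.M} (h : D.HolOn g W) (hW : W' ⊆ W) : D.HolOn g W' :=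
  fun e he => (h e he).mono fun w hw => ⟨hw.1, hW hw.2⟩

theorem HolOn.differentiableAt {g : D.M → ℂ} {W : Set D.M} (h : D.HolOn g W) (hW : IsOpen W)
    {e : OpenPartialHomeomorph D.M (Cn n)} (he : D.IsCh e) {w : Cn n} (hw : w ∈ e.target) (hw' : e.symm w ∈ W) :
    DifferentiableAt ℂ (g ∘ e.symm) w :=
  (h e he).differentiableAt ((isOpen_pre e hW).mem_nhds ⟨hw, hw'⟩)

/-- Local criterion: near every point `g` is a holomorphic function of `π`. -/
theorem holOn_of_local1 {g : D.M → ℂ} {W : Set D.M}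
    (h : ∀ x ∈ W, ∃ p : Cn n → ℂ, DifferentiableAt ℂ p (D.π x) ∧ ∀ᶠ y in 𝓝 x, g y = p (D.π y)) : D.HolOn g W := by
  intro e he w hw
  obtain ⟨p, hp, hg⟩ := h _ hw.2
  rw [he.π_symm hw.1] at hp
  refine (hp.congr_of_eventuallyEq ?_).differentiableWithinAt
  filter_upwards [(e.continuousAt_symm hw.1).eventually hg, e.open_target.mem_nhds hw.1] with z h1 h2
  simp only [Function.comp_apply, h1, he.π_symm h2]

/-- Local criterion: near every point `g` is a smooth function of `π`. -/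
theorem smOn_of_local1 {F : Type} [NormedAddCommGroup F] [NormedSpace ℝ F] {g : D.M → F} {W : Set D.M}
    (h : ∀ x ∈ W, ∃ p : Cn n → F, ContDiffAt ℝ ∞ p (D.π x) ∧ ∀ᶠ y in 𝓝 x, g y = p (D.π y)) : D.SmOn g W := by
  intro e he w hw
  obtain ⟨p, hp, hg⟩ := h _ hw.2
  rw [he.π_symm hw.1] at hp
  refine (hp.congr_of_eventuallyEq ?_).contDiffWithinAt
  filter_upwards [(e.continuousAt_symm hw.1).eventually hg, e.open_target.mem_nhds hw.1] with z h1 h2
  simp only [Function.comp_apply, h1, he.π_symm h2]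

/-- Transplanting a compactly supported smooth function from a flat chart. -/
theorem exists_transplant {F : Type} [NormedAddCommGroup F] [NormedSpace ℝ F] {e : OpenPartialHomeomorph D.M (Cn n)}
    (he : D.IsCh e) {p : Cn n → F} (hp : ContDiff ℝ ∞ p) {S : Set (Cn n)} (hS : IsCompact S) (hSe : S ⊆ e.target)
    (h0 : ∀ w, w ∉ S → p w = 0) :
    ∃ g : D.M → F, D.SmOn g univ ∧ HasCompactSupport g ∧ tsupport g ⊆ e.symm '' S ∧ (∀ x ∈ e.source, g x = p (D.π x)) ∧
      ∀ x, x ∉ e.source → g x = 0 := by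
  classical
  have hc : IsCompact (e.symm '' S) := hS.image_of_continuousOn (e.continuousOn_symm.mono hSe)
  set g : D.M → F := fun x => if x ∈ e.source then p (D.π x) else 0 with hg
  have hz : ∀ x, x ∉ e.symm '' S → g x = 0 := fun x hx => by
    by_cases hxe : x ∈ e.source
    · simp only [hg, if_pos hxe]
      refine h0 _ fun hw => hx ⟨_, hw, ?_⟩
      rw [← he _ hxe, e.left_inv hxe]
    · simp only [hg, if_neg hxe]
  have hts : tsupport g ⊆ e.symm '' S :=
    closure_minimal (fun x hx => by by_contra h; exact hx (hz x h)) hc.isClosed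
  refine ⟨g, smOn_of_local1 fun x _ => ?_, hc.of_isClosed_subset (isClosed_tsupport _) hts, hts,
    fun x hx => by simp only [hg, if_pos hx], fun x hx => by simp only [hg, if_neg hx]⟩
  by_cases hxe : x ∈ e.source
  · refine ⟨p, hp.contDiffAt, ?_⟩
    filter_upwards [e.open_source.mem_nhds hxe] with y hy
    simp only [hg, if_pos hy]
  · have hx : x ∉ e.symm '' S := by
      rintro ⟨w, hw, rfl⟩
      exact hxe (e.map_target (hSe hw))
    refine ⟨fun _ => 0, contDiffAt_const, ?_⟩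
    filter_upwards [hc.isClosed.isOpen_compl.mem_nhds hx] with y hy
    exact hz y hy

/-- A cut-off of an entire function near a point. -/
theorem exists_bump (D : RDom n) (x : D.M) {O : Set D.M} (hO : IsOpen O) (hx : x ∈ O) {p : Cn n → ℂ}
    (hp : Differentiable ℂ p) (hp' : ContDiff ℝ ∞ p) :
    ∃ (g : D.M → ℂ) (K : Set D.M), D.SmOn g univ ∧ HasCompactSupport g ∧ IsCompact K ∧ D.HolOn g Kᶜ ∧ x ∉ K ∧ K ⊆ O ∧
      (∀ y, y ∉ O → g y = 0) ∧ ∀ᶠ y in 𝓝 x, g y = p (D.π y) := by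
  obtain ⟨e, he, hxe⟩ := D.exists_ch1 x
  obtain ⟨r, hr, hrs⟩ := nhds_basis_closedBall.mem_iff.1 (pre_mem_nhds e hO hxe hx)
  let b : ContDiffBump (e x) := ⟨r / 2, r, by positivity, by linarith⟩
  have hb : ContDiff ℝ ∞ fun w => (b w : ℂ) * p w :=
    (Complex.ofRealCLM.contDiff.comp b.contDiff).mul hp'
  obtain ⟨g, hsm, hcs, hts, hge, -⟩ := exists_transplant he hb (isCompact_closedBall (e x) r)
    (fun w hw => (hrs hw).1) fun w hw => by
      rw [b.zero_of_le_dist (le_of_lt (by simpa [b] using hw))]; simp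
  have htO : tsupport g ⊆ O := by
    intro y hy
    obtain ⟨w, hw, rfl⟩ := hts hy
    exact (hrs hw).2
  set U : Set D.M := e.source ∩ e ⁻¹' ball (e x) (r / 2) with hU
  have hUo : IsOpen U := e.isOpen_inter_preimage isOpen_ball
  have hxU : x ∈ U := ⟨hxe, mem_ball_self (by positivity)⟩
  have hgU : ∀ y ∈ U, g y = p (D.π y) := fun y hy => by
    rw [hge y hy.1, b.one_of_mem_closedBall (by rw [← he _ hy.1]; exact ball_subset_closedBall hy.2)]
    simp
  refine ⟨g, tsupport g \ U, hsm, hcs, hcs.isCompact.diff hUo, holOn_of_local1 fun y hy => ?_, fun h => h.2 hxU,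
    fun y hy => htO hy.1, fun y hy => image_eq_zero_of_notMem_tsupport fun h => hy (htO h), ?_⟩
  · by_cases hyU : y ∈ U
    · refine ⟨p, hp _, ?_⟩
      filter_upwards [hUo.mem_nhds hyU] with z hz using hgU z hz
    · have : y ∉ tsupport g := fun h => hy ⟨h, hyU⟩
      refine ⟨fun _ => 0, differentiableAt_const _, ?_⟩
      filter_upwards [(isClosed_tsupport g).isOpen_compl.mem_nhds this] with z hz
      exact image_eq_zero_of_notMem_tsupport hz
  · filter_upwards [hUo.mem_nhds hxU] with z hz using hgU z hz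

theorem locallyCompact (D : RDom n) : LocallyCompactSpace D.M := by
  refine ⟨fun x O hO => ?_⟩
  obtain ⟨e, he, hxe⟩ := D.exists_ch1 x
  obtain ⟨O', hO', hOo, hx⟩ := mem_nhds_iff.1 hO
  obtain ⟨r, hr, hrs⟩ := nhds_basis_closedBall.mem_iff.1 (pre_mem_nhds e hOo hxe hx)
  refine ⟨e.symm '' closedBall (e x) r, ?_, ?_,
    (isCompact_closedBall _ _).image_of_continuousOn (e.continuousOn_symm.mono fun w hw => (hrs hw).1)⟩
  · have := e.symm.image_mem_nhds (e.map_source hxe) (closedBall_mem_nhds (e x) hr)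
    rwa [e.left_inv hxe] at this
  · rintro _ ⟨w, hw, rfl⟩
    exact hO' (hrs hw).2

/-- A relatively compact open neighbourhood of a compact set inside an open set. -/
theorem exists_nhd (D : RDom n) {K O : Set D.M} (hK : IsCompact K) (hO : IsOpen O) (hKO : K ⊆ O) :
    ∃ W K' : Set D.M, IsOpen W ∧ IsCompact K' ∧ K ⊆ W ∧ W ⊆ K' ∧ K' ⊆ O := by
  have := D.locallyCompact
  obtain ⟨L, hL, h1, h2⟩ := exists_compact_between hK hO hKO
  exact ⟨interior L, L, isOpen_interior, hL, h1, interior_subset, h2⟩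

end RDom

end Crest.Agent.R269
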