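import Crest.Agent.R269.E
import Crest.Agent.R269.I.RD

/-!
# Row 269, block I1: regularised logarithmic poles and the weight
-/

set_option autoImplicit false
set_option linter.unusedSectionVars false
set_option linter.unusedVariables false

noncomputable section

namespace Crest.Agent.R269

open Set Metric Filter Topology MeasureTheory Matrix
open Crest.AlgGeometry.ProjEmb
open scoped InnerProductSpace ContDiff

theorem two_le_inf : (2 : WithTop ℕ∞) ≤ ∞ := by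
  exact WithTop.coe_le_coe.2 (le_top : (2 : ℕ∞) ≤ ⊤)

/-- Regularised logarithmic lpole. -/
def lpole {m : ℕ} (y : Cn m) (δ : ℝ) (x : Cn m) : ℝ := Real.log (‖x - y‖ ^ 2 + δ ^ 2)

section lpole

variable {m : ℕ}

def lpoleMap (y : Cn m) (δ : ℝ) (x : Cn m) : EuclideanSpace ℂ (Option (Fin m)) :=
  WithLp.toLp 2 fun o => o.elim (δ : ℂ) fun i => x i - y i

theorem norm_lpoleMap (y : Cn m) (δ : ℝ) (x : Cn m) : ‖lpoleMap y δ x‖ ^ 2 = ‖x - y‖ ^ 2 + δ ^ 2 := by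
  rw [EuclideanSpace.norm_sq_eq, EuclideanSpace.norm_sq_eq, Fintype.sum_option]
  simp [lpoleMap, add_comm]

theorem analyticAt_lpoleMap (y : Cn m) (δ : ℝ) (x : Cn m) : AnalyticAt ℂ (lpoleMap y δ) x := by
  have h : AnalyticAt ℂ (fun x : Cn m => fun o : Option (Fin m) => o.elim (δ : ℂ) fun i => x i - y i) x := by
    refine analyticAt_pi_iff.2 fun o => ?_
    cases o with
    | none => exact analyticAt_const
    | some i => exact ((EuclideanSpace.proj (𝕜 := ℂ) i).analyticAt x).sub analyticAt_const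
  exact ((PiLp.continuousLinearEquiv 2 ℂ (fun _ : Option (Fin m) => ℂ)).symm.analyticAt _).comp h

theorem lpoleMap_ne (y : Cn m) {δ : ℝ} (hδ : 0 < δ) (x : Cn m) : lpoleMap y δ x ≠ 0 := by
  intro h
  have := norm_lpoleMap y δ x
  rw [h] at this
  simp only [norm_zero] at this
  nlinarith [sq_nonneg ‖x - y‖, pow_pos hδ 2]

theorem lpole_eq (y : Cn m) (δ : ℝ) : lpole y δ = fun x => Real.log (‖lpoleMap y δ x‖ ^ 2) := by
  funext x; rw [norm_lpoleMap, lpole]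

theorem contDiffAt_lpole (y : Cn m) {δ : ℝ} (hδ : 0 < δ) (x : Cn m) : ContDiffAt ℝ ∞ (lpole y δ) x := by
  rw [lpole_eq]
  exact (contDiffAt_log_norm_sq (lpoleMap_ne y hδ x)).comp x
    (((analyticAt_lpoleMap y δ x).contDiffAt (n := ∞)).restrict_scalars ℝ)

theorem continuous_lpole (y : Cn m) {δ : ℝ} (hδ : 0 < δ) : Continuous (lpole y δ) :=
  continuous_iff_continuousAt.2 fun x => (contDiffAt_lpole y hδ x).continuousAt

theorem levi_lpole_nonneg (y : Cn m) {δ : ℝ} (hδ : 0 < δ) (x v : Cn m) : 0 ≤ levi (lpole y δ) x v := by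
  rw [lpole_eq, levi_comp_hol (f := fun z : EuclideanSpace ℂ (Option (Fin m)) => Real.log (‖z‖ ^ 2))
    ((contDiffAt_log_norm_sq (lpoleMap_ne y hδ x)).of_le two_le_inf) (analyticAt_lpoleMap y δ x),
    levi_log_norm_sq (lpoleMap_ne y hδ x)]
  exact om_nonneg _ _

theorem lpole_ge {y x : Cn m} (h : x ≠ y) (δ : ℝ) : Real.log (‖x - y‖ ^ 2) ≤ lpole y δ x :=
  Real.log_le_log (pow_pos (norm_pos_iff.2 (sub_ne_zero.2 h)) 2) (by nlinarith [sq_nonneg δ])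

theorem lpole_le_one (y x : Cn m) {δ : ℝ} (hδ : 0 < δ) (h1 : δ ≤ 1) : lpole y δ x ≤ lpole y 1 x :=
  Real.log_le_log (by positivity) (by nlinarith)

theorem lpole_le_near {y x : Cn m} {δ L : ℝ} (hδ : 0 < δ) (h : ‖x - y‖ ≤ L * δ) :
    lpole y δ x ≤ Real.log (L ^ 2 + 1) + Real.log (δ ^ 2) := by
  rw [← Real.log_mul (by positivity) (by positivity)]
  refine Real.log_le_log (by positivity) ?_
  have := pow_le_pow_left₀ (norm_nonneg _) h 2
  nlinarith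

/-- `lpole y 1 x ≤ log ‖x‖² + C` where `log ‖x‖²` is bounded below. -/
theorem lpole_le_log (y : Cn m) (C : ℝ) : ∃ C' : ℝ, ∀ x : Cn m, x ≠ 0 → -C ≤ Real.log (‖x‖ ^ 2) →
    lpole y 1 x ≤ Real.log (‖x‖ ^ 2) + C' := by
  refine ⟨Real.log (2 + (2 * ‖y‖ ^ 2 + 1) * Real.exp C), fun x hx h => ?_⟩
  have hx2 : 0 < ‖x‖ ^ 2 := pow_pos (norm_pos_iff.2 hx) 2
  rw [← Real.log_mul hx2.ne' (by positivity)]
  refine Real.log_le_log (by positivity) ?_
  have h1 : 1 ≤ ‖x‖ ^ 2 * Real.exp C := by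
    rw [← Real.exp_log hx2, ← Real.exp_add]
    exact Real.one_le_exp (by linarith)
  have h2 : ‖x - y‖ ^ 2 ≤ 2 * ‖x‖ ^ 2 + 2 * ‖y‖ ^ 2 := by
    have := pow_le_pow_left₀ (norm_nonneg _) (norm_sub_le x y) 2
    nlinarith [sq_nonneg (‖x‖ - ‖y‖)]
  nlinarith [sq_nonneg ‖y‖]

end lpole

namespace Geo

variable {N n : ℕ} (X : Geo N n) (Λ : Matrix (Fin (n + 1)) (Fin (N + 1)) ℂ)

/-- The smooth part of the weight. -/
def sw (x₁ x₂ : X.OmS Λ) (k r δ : ℝ) (x : X.OmS Λ) : ℝ :=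
  k * (lpole x₁.1 δ x.1 + lpole x₂.1 δ x.1) + r * X.pot Λ 0 1 x.1

variable {X Λ}

theorem continuous_sw (x₁ x₂ : X.OmS Λ) (k r : ℝ) {δ : ℝ} (hδ : 0 < δ) : Continuous (X.sw Λ x₁ x₂ k r δ) :=
  (continuous_const.mul (((continuous_lpole _ hδ).comp continuous_subtype_val).add
    ((continuous_lpole _ hδ).comp continuous_subtype_val))).add (continuous_const.mul (X.continuous_pot Λ 0 1))

theorem analyticAt_symm {e : OpenPartialHomeomorph (X.OmS Λ) (Cn n)} (he : (X.OmD Λ).IsCh e) {w : Cn n}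
    (hw : w ∈ e.target) : AnalyticAt ℂ (fun z => (e.symm z).1) w := by
  obtain ⟨C, -, hB, hσ⟩ := X.chart_of_isCh Λ he
  have : (fun z => (e.symm z).1) = C.σ := (funext hσ).symm
  rw [this]
  exact C.an w (hB ▸ hw)

theorem contDiffAt_pot_symm {e : OpenPartialHomeomorph (X.OmS Λ) (Cn n)} (he : (X.OmD Λ).IsCh e) {w : Cn n}
    (hw : w ∈ e.target) (a b : ℝ) : ContDiffAt ℝ 2 (fun z => X.pot Λ a b (e.symm z).1) w :=
  (((X.smOn_pot Λ a b e he).contDiffAt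
    ((RDom.isOpen_pre (D := X.OmD Λ) e isOpen_univ).mem_nhds ⟨hw, mem_univ _⟩))).of_le two_le_inf

theorem levi_sw (x₁ x₂ : X.OmS Λ) {k r δ : ℝ} (hk : 0 ≤ k) (hδ : 0 < δ) {e : OpenPartialHomeomorph (X.OmS Λ) (Cn n)}
    (he : (X.OmD Λ).IsCh e) {w : Cn n} (hw : w ∈ e.target) :
    ContDiffAt ℝ 2 (fun z => X.sw Λ x₁ x₂ k r δ (e.symm z)) w ∧
      ∀ v, r * levi (fun z => X.pot Λ 0 1 (e.symm z).1) w v ≤ levi (fun z => X.sw Λ x₁ x₂ k r δ (e.symm z)) w v := by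
  have ha := analyticAt_symm he hw
  have hp : ∀ y : Cn (N + 1), ContDiffAt ℝ 2 (lpole y δ) (e.symm w).1 := fun y =>
    (contDiffAt_lpole y hδ _).of_le two_le_inf
  have hp' : ∀ y : Cn (N + 1), ContDiffAt ℝ 2 (fun z => lpole y δ (e.symm z).1) w := fun y =>
    ContDiffAt.comp (g := lpole y δ) (f := fun z => (e.symm z).1) w (hp y) ((ha.contDiffAt (n := 2)).restrict_scalars ℝ)
  have h0 := contDiffAt_pot_symm he hw 0 1
  have h1 : ContDiffAt ℝ 2 (fun z => k * (lpole x₁.1 δ (e.symm z).1 + lpole x₂.1 δ (e.symm z).1)) w :=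
    contDiffAt_const.mul ((hp' _).add (hp' _))
  have h2 : ContDiffAt ℝ 2 (fun z => r * X.pot Λ 0 1 (e.symm z).1) w := contDiffAt_const.mul h0
  refine ⟨h1.add h2, fun v => ?_⟩
  simp only [sw]
  rw [levi_add h1 h2, levi_const_mul h0, levi_const_mul ((hp' _).add (hp' _)), levi_add (hp' _) (hp' _),
    levi_comp_hol (φ := fun z => (e.symm z).1) (hp x₁.1) ha, levi_comp_hol (φ := fun z => (e.symm z).1) (hp x₂.1) ha]
  have := mul_nonneg hk (add_nonneg (levi_lpole_nonneg x₁.1 hδ (e.symm w).1 (fderiv ℂ (fun z => (e.symm z).1) w v))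
    (levi_lpole_nonneg x₂.1 hδ (e.symm w).1 (fderiv ℂ (fun z => (e.symm z).1) w v)))
  linarith

theorem pot01 (y : Cn (N + 1)) : X.pot Λ 0 1 y = Real.log (‖y‖ ^ 2) := by simp [pot]

theorem levi_pot01_nonneg {e : OpenPartialHomeomorph (X.OmS Λ) (Cn n)} (he : (X.OmD Λ).IsCh e) {w : Cn n}
    (hw : w ∈ e.target) (v : Cn n) : 0 ≤ levi (fun z => X.pot Λ 0 1 (e.symm z).1) w v := by
  have h0 : (e.symm w).1 ≠ 0 := (e.symm w).2.1.1
  simp only [pot01]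
  rw [levi_comp_hol (f := fun z : Cn (N + 1) => Real.log (‖z‖ ^ 2)) (φ := fun z => (e.symm z).1)
    ((contDiffAt_log_norm_sq h0).of_le two_le_inf) (analyticAt_symm he hw), levi_log_norm_sq h0]
  exact om_nonneg _ _

/-- Upper bound, uniform in `δ ≤ 1`. -/
theorem sw_upper (x₁ x₂ : X.OmS Λ) {k : ℝ} (hk : 0 ≤ k) (r : ℝ) : ∃ C : ℝ, ∀ δ, 0 < δ → δ ≤ 1 → ∀ x,
    X.sw Λ x₁ x₂ k r δ x ≤ (2 * k + r) * Real.log (‖x.1‖ ^ 2) + C := by
  obtain ⟨C, hC⟩ := X.pot_lower Λ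
  obtain ⟨C₁, h₁⟩ := lpole_le_log x₁.1 C
  obtain ⟨C₂, h₂⟩ := lpole_le_log x₂.1 C
  refine ⟨k * (C₁ + C₂), fun δ hδ h1 x => ?_⟩
  have hx : -C ≤ Real.log (‖x.1‖ ^ 2) := by rw [← pot01 (X := X) (Λ := Λ)]; exact (hC _ x.2).2
  have a1 := (lpole_le_one x₁.1 x.1 hδ h1).trans (h₁ _ x.2.1.1 hx)
  have a2 := (lpole_le_one x₂.1 x.1 hδ h1).trans (h₂ _ x.2.1.1 hx)
  have := mul_le_mul_of_nonneg_left (add_le_add a1 a2) hk
  simp only [sw, pot01]
  linarith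

/-- Lower bound away from the poles, uniform in `δ`. -/
theorem sw_lower (x₁ x₂ : X.OmS Λ) {k : ℝ} (hk : 0 ≤ k) (r : ℝ) {K : Set (X.OmS Λ)} (hK : IsCompact K) (h₁ : x₁ ∉ K)
    (h₂ : x₂ ∉ K) : ∃ B : ℝ, ∀ δ, ∀ x ∈ K, -B ≤ X.sw Λ x₁ x₂ k r δ x := by
  have hne : ∀ {y : X.OmS Λ}, y ∉ K → ∀ x ∈ K, x.1 ≠ y.1 := fun hy x hx h => hy (Subtype.ext h ▸ hx)
  have hl : ∀ {y : X.OmS Λ}, y ∉ K → ContinuousOn (fun x : X.OmS Λ => Real.log (‖x.1 - y.1‖ ^ 2)) K := fun hy =>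
    ContinuousOn.log (Continuous.continuousOn (by fun_prop)) fun x hx =>
      (pow_pos (norm_pos_iff.2 (sub_ne_zero.2 (hne hy x hx))) 2).ne'
  have hc : ContinuousOn (fun x : X.OmS Λ => k * (Real.log (‖x.1 - x₁.1‖ ^ 2) + Real.log (‖x.1 - x₂.1‖ ^ 2)) +
      r * X.pot Λ 0 1 x.1) K :=
    (continuousOn_const.mul ((hl h₁).add (hl h₂))).add (continuous_const.mul (X.continuous_pot Λ 0 1)).continuousOn
  obtain ⟨B, hB⟩ := hK.exists_bound_of_continuousOn hc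
  refine ⟨B, fun δ x hx => ?_⟩
  have a0 := (abs_le.1 (hB x hx)).1
  have := mul_le_mul_of_nonneg_left (add_le_add (lpole_ge (hne h₁ x hx) δ) (lpole_ge (hne h₂ x hx) δ)) hk
  simp only [sw]
  linarith

theorem sw_comm (x₁ x₂ : X.OmS Λ) (k r δ : ℝ) : X.sw Λ x₁ x₂ k r δ = X.sw Λ x₂ x₁ k r δ := by
  funext x; simp only [sw, add_comm]

/-- Near a lpole the weight is at most `k log δ² + C` on balls of radius `2 δ`. -/
theorem sw_near (x₁ x₂ : X.OmS Λ) {k : ℝ} (hk : 0 ≤ k) (r : ℝ) {e : OpenPartialHomeomorph (X.OmS Λ) (Cn n)}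
    (he : (X.OmD Λ).IsCh e) (hx : x₁ ∈ e.source) {ψ : X.OmS Λ → ℝ} (hψ : Continuous ψ) :
    ∃ C δ₀ : ℝ, 0 < δ₀ ∧ ∀ δ, 0 < δ → δ ≤ δ₀ → ∀ w ∈ ball (e x₁) (2 * δ),
      ψ (e.symm w) + X.sw Λ x₁ x₂ k r δ (e.symm w) ≤ k * Real.log (δ ^ 2) + C := by
  have hw := e.map_source hx
  have ha := analyticAt_symm he hw
  obtain ⟨L, t, ht, hL⟩ := ((ha.contDiffAt (n := 1)).restrict_scalars ℝ).exists_lipschitzOnWith
  have hc : ContinuousAt (fun w => ψ (e.symm w) + (k * lpole x₂.1 1 (e.symm w).1 + r * X.pot Λ 0 1 (e.symm w).1)) (e x₁) := by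
    have : Continuous fun x : X.OmS Λ => ψ x + (k * lpole x₂.1 1 x.1 + r * X.pot Λ 0 1 x.1) :=
      hψ.add ((continuous_const.mul ((continuous_lpole _ one_pos).comp continuous_subtype_val)).add
        (continuous_const.mul (X.continuous_pot Λ 0 1)))
    exact this.continuousAt.comp (e.continuousAt_symm hw)
  obtain ⟨A, hA⟩ : ∃ A, ∀ᶠ w in 𝓝 (e x₁),
      ψ (e.symm w) + (k * lpole x₂.1 1 (e.symm w).1 + r * X.pot Λ 0 1 (e.symm w).1) < A :=
    ⟨_, hc.eventually (gt_mem_nhds (lt_add_one _))⟩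
  obtain ⟨ρ, hρ, hb⟩ := Metric.mem_nhds_iff.1 (inter_mem ht hA)
  refine ⟨A + k * Real.log ((2 * L) ^ 2 + 1), min 1 (ρ / 2), by positivity, fun δ hδ hδ₀ w hw' => ?_⟩
  have hδ1 : δ ≤ 1 := hδ₀.trans (min_le_left _ _)
  have hδρ : δ ≤ ρ / 2 := hδ₀.trans (min_le_right _ _)
  have hwb := hb (ball_subset_ball (by linarith) hw')
  have h1 : ‖(e.symm w).1 - x₁.1‖ ≤ 2 * L * δ := by
    have := hL.dist_le_mul w hwb.1 (e x₁) (mem_of_mem_nhds ht)
    rw [e.left_inv hx, dist_eq_norm] at this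
    have h2 := mul_le_mul_of_nonneg_left (mem_ball.1 hw').le L.2
    exact this.trans (h2.trans (le_of_eq (by simp only [NNReal.val_eq_coe]; ring)))
  have h2 := mul_le_mul_of_nonneg_left (add_le_add (lpole_le_near hδ h1) (lpole_le_one x₂.1 (e.symm w).1 hδ hδ1)) hk
  have h3 : ψ (e.symm w) + (k * lpole x₂.1 1 (e.symm w).1 + r * X.pot Λ 0 1 (e.symm w).1) < A := hwb.2
  simp only [sw]
  linarith

end Geo

end Crest.Agent.R269
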