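import Crest.Agent.R269.A.Levi

/-!
# Row 269, block I: pointwise API for Riemann domains, extension by zero, mean value inequality on balls of `ℂⁿ` (helper41)
-/

set_option autoImplicit false
set_option linter.unusedSectionVars false
set_option linter.unusedVariables false

noncomputable section

namespace Crest.Agent.R269

open Set Metric Filter Topology MeasureTheory Matrix
open Crest.AlgGeometry.ProjEmb
open scoped InnerProductSpace ContDiff ComplexOrder

theorem two_le_infty : (2 : WithTop ℕ∞) ≤ ∞ := WithTop.coe_le_coe.2 le_top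

theorem usc_congr {M : Type} [TopologicalSpace M] {f g : M → ℝ} {x : M} (h : UpperSemicontinuousAt f x) (h' : g =ᶠ[𝓝 x] f) :
    UpperSemicontinuousAt g x := fun y hy => by
  filter_upwards [h y (h'.self_of_nhds.symm.trans_lt hy), h'] with z h1 h2 using h2.trans_lt h1

namespace RDom

variable {n : ℕ} {D : RDom n} {e e' : OpenPartialHomeomorph D.M (Cn n)} {x : D.M} {w : Cn n} {α : Type}

theorem exists_ch (D : RDom n) (x : D.M) : ∃ e, D.IsCh e ∧ x ∈ e.source := by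
  obtain ⟨e, hx, he⟩ := D.loc x
  exact ⟨e, fun y _ => (congrFun he y).symm, hx⟩

theorem IsCh.pi_symm (he : D.IsCh e) (hw : w ∈ e.target) : D.π (e.symm w) = w := by
  rw [← he _ (e.map_target hw), e.right_inv hw]

theorem IsCh.symm_pi (he : D.IsCh e) (hx : x ∈ e.source) : e.symm (D.π x) = x := by
  rw [← he x hx, e.left_inv hx]

theorem IsCh.mem_target (he : D.IsCh e) (hx : x ∈ e.source) : D.π x ∈ e.target := by
  rw [← he x hx]
  exact e.map_source hx

theorem IsCh.tendsto_symm (he : D.IsCh e) (hx : x ∈ e.source) : Tendsto e.symm (𝓝 (D.π x)) (𝓝 x) := by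
  have := e.continuousAt_symm (he.mem_target hx)
  rwa [ContinuousAt, he.symm_pi hx] at this

theorem IsCh.ev_comp_pi (he : D.IsCh e) (hx : x ∈ e.source) (f : D.M → α) : f =ᶠ[𝓝 x] (f ∘ e.symm) ∘ D.π := by
  filter_upwards [e.open_source.mem_nhds hx] with y hy
  simp [he.symm_pi hy]

theorem IsCh.comp_pi_ev (he : D.IsCh e) (hx : x ∈ e.source) {f : D.M → α} {g : Cn n → α} (h : f =ᶠ[𝓝 x] g ∘ D.π) :
    f ∘ e.symm =ᶠ[𝓝 (D.π x)] g := by
  filter_upwards [(he.tendsto_symm hx).eventually h, e.open_target.mem_nhds (he.mem_target hx)] with w hw hw'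
  simpa [he.pi_symm hw'] using hw

theorem IsCh.comp_ev (he : D.IsCh e) (hx : x ∈ e.source) {f g : D.M → α} (h : f =ᶠ[𝓝 x] g) :
    f ∘ e.symm =ᶠ[𝓝 (D.π x)] g ∘ e.symm := (he.tendsto_symm hx).eventually h

theorem IsCh.symm_ev (he : D.IsCh e) (he' : D.IsCh e') (hx : x ∈ e.source) (hx' : x ∈ e'.source) (f : D.M → α) :
    f ∘ e.symm =ᶠ[𝓝 (D.π x)] f ∘ e'.symm := he.comp_pi_ev hx (he'.ev_comp_pi hx' f)

theorem tendsto_pi (D : RDom n) (x : D.M) : Tendsto D.π (𝓝 x) (𝓝 (D.π x)) := D.loc.continuous.continuousAt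

section
variable {φ : D.M → ℝ} {W : Set D.M} {c : (Fin n → Cn n) → ℝ}

theorem vbm_of_local (h : ∀ x ∈ W, ∃ ψ : Cn n → ℝ, φ =ᶠ[𝓝 x] ψ ∘ D.π ∧ VB ψ {D.π x} c) : D.VBM φ W c := by
  intro e he
  refine VB.of_local fun w hw => ?_
  obtain ⟨ψ, h1, h2⟩ := h _ hw.2
  have h3 := he.comp_pi_ev (e.map_target hw.1) h1
  rw [he.pi_symm hw.1] at h2 h3
  exact ⟨ψ, {w}, rfl, h2, h3⟩

theorem VBM.pt (h : D.VBM φ W c) (he : D.IsCh e) (hx : x ∈ e.source) (hW : x ∈ W) : VB (φ ∘ e.symm) {D.π x} c :=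
  (h e he).mono (singleton_subset_iff.2 ⟨he.mem_target hx, by rwa [mem_preimage, he.symm_pi hx]⟩) fun _ => le_rfl

theorem VBM.mono {W' : Set D.M} {c' : (Fin n → Cn n) → ℝ} (h : D.VBM φ W c) (hW : W' ⊆ W) (hc : ∀ v, c' v ≤ c v) :
    D.VBM φ W' c' := fun e he => (h e he).mono (inter_subset_inter_right _ (preimage_mono hW)) hc

theorem VBM.const_mul (h : D.VBM φ W c) {t : ℝ} (ht : 0 ≤ t) : D.VBM (fun x => t * φ x) W fun v => t * c v :=
  fun e he => (h e he).const_mul ht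

end

theorem _root_.Crest.Agent.R269.VB.congr_pt {φ ψ : Cn n → ℝ} {c : (Fin n → Cn n) → ℝ} (h : VB ψ {w} c) (h' : φ =ᶠ[𝓝 w] ψ) :
    VB φ {w} c := VB.of_local fun _ hw => ⟨ψ, {w}, hw, h, by rwa [mem_singleton_iff.1 hw]⟩

section
variable {F : Type} [NormedAddCommGroup F] [NormedSpace ℝ F] {g : D.M → F} {W : Set D.M}

theorem smOn_of_local (h : ∀ x ∈ W, ∃ ψ : Cn n → F, g =ᶠ[𝓝 x] ψ ∘ D.π ∧ ContDiffAt ℝ ∞ ψ (D.π x)) : D.SmOn g W := by
  intro e he w hw
  obtain ⟨ψ, h1, h2⟩ := h _ hw.2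
  have h3 := he.comp_pi_ev (e.map_target hw.1) h1
  rw [he.pi_symm hw.1] at h2 h3
  exact (h2.congr_of_eventuallyEq h3).contDiffWithinAt

theorem IsCh.nhds_mem (he : D.IsCh e) (hx : x ∈ e.source) (hW : W ∈ 𝓝 x) : e.target ∩ e.symm ⁻¹' W ∈ 𝓝 (D.π x) :=
  inter_mem (e.open_target.mem_nhds (he.mem_target hx)) (he.tendsto_symm hx hW)

theorem SmOn.pt (h : D.SmOn g W) (he : D.IsCh e) (hx : x ∈ e.source) (hW : W ∈ 𝓝 x) :
    ContDiffAt ℝ ∞ (g ∘ e.symm) (D.π x) := (h e he).contDiffAt (he.nhds_mem hx hW)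

theorem SmOn.continuousAt (h : D.SmOn g W) (hW : W ∈ 𝓝 x) : ContinuousAt g x := by
  obtain ⟨e, he, hx⟩ := D.exists_ch x
  exact ((h.pt he hx hW).continuousAt.comp (D.loc.continuous.continuousAt)).congr (he.ev_comp_pi hx g).symm

end

section
variable {g : D.M → ℂ} {W : Set D.M}

theorem holOn_of_local (h : ∀ x ∈ W, ∃ ψ : Cn n → ℂ, g =ᶠ[𝓝 x] ψ ∘ D.π ∧ DifferentiableAt ℂ ψ (D.π x)) : D.HolOn g W := by
  intro e he w hw
  obtain ⟨ψ, h1, h2⟩ := h _ hw.2
  have h3 := he.comp_pi_ev (e.map_target hw.1) h1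
  rw [he.pi_symm hw.1] at h2 h3
  exact (h2.congr_of_eventuallyEq h3).differentiableWithinAt

theorem HolOn.pt (h : D.HolOn g W) (he : D.IsCh e) (hx : x ∈ e.source) (hW : W ∈ 𝓝 x) :
    DifferentiableAt ℂ (g ∘ e.symm) (D.π x) := (h e he).differentiableAt (he.nhds_mem hx hW)

end

/-- Extension by zero of a function given in a flat chart. -/
def ext0 [Zero α] (D : RDom n) (e : OpenPartialHomeomorph D.M (Cn n)) (f : Cn n → α) : D.M → α :=
  e.source.indicator (f ∘ D.π)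

section
variable [Zero α] {f : Cn n → α} {K : Set (Cn n)}

theorem ext0_of_mem (hx : x ∈ e.source) : D.ext0 e f x = f (D.π x) := indicator_of_mem hx _

theorem ext0_symm (he : D.IsCh e) (hw : w ∈ e.target) : D.ext0 e f (e.symm w) = f w := by
  rw [ext0_of_mem (e.map_target hw), he.pi_symm hw]

theorem ext0_ev (hx : x ∈ e.source) : D.ext0 e f =ᶠ[𝓝 x] f ∘ D.π := by
  filter_upwards [e.open_source.mem_nhds hx] with y hy using ext0_of_mem hy

theorem isCompact_symm (hK : IsCompact K) (hKe : K ⊆ e.target) : IsCompact (e.symm '' K) :=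
  hK.image_of_continuousOn (e.continuousOn_symm.mono hKe)

theorem IsCh.mem_image (he : D.IsCh e) (hKe : K ⊆ e.target) : x ∈ e.symm '' K ↔ x ∈ e.source ∧ D.π x ∈ K := by
  constructor
  · rintro ⟨w, hw, rfl⟩
    exact ⟨e.map_target (hKe hw), by rwa [he.pi_symm (hKe hw)]⟩
  · exact fun h => ⟨_, h.2, he.symm_pi h.1⟩

theorem ext0_eq_zero (he : D.IsCh e) (hKe : K ⊆ e.target) (hf : ∀ w, w ∉ K → f w = 0) (hx : x ∉ e.symm '' K) :
    D.ext0 e f x = 0 := by
  by_cases h : x ∈ e.source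
  · rw [ext0_of_mem h]
    exact hf _ fun h' => hx ((he.mem_image hKe).2 ⟨h, h'⟩)
  · exact indicator_of_notMem h _

theorem ext0_ev_zero (he : D.IsCh e) (hK : IsCompact K) (hKe : K ⊆ e.target) (hf : ∀ w, w ∉ K → f w = 0)
    (hx : x ∉ e.symm '' K) : D.ext0 e f =ᶠ[𝓝 x] fun _ => 0 := by
  filter_upwards [(isCompact_symm hK hKe).isClosed.isOpen_compl.mem_nhds hx] with y hy using ext0_eq_zero he hKe hf hy

theorem hasCompactSupport_ext0 (he : D.IsCh e) (hK : IsCompact K) (hKe : K ⊆ e.target) (hf : ∀ w, w ∉ K → f w = 0) :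
    HasCompactSupport (D.ext0 e f) :=
  HasCompactSupport.intro (isCompact_symm hK hKe) fun _ hx => ext0_eq_zero he hKe hf hx

end

theorem Wt.const_mul {φ : D.M → ℝ} (h : D.Wt φ) {t : ℝ} (ht : 0 ≤ t) : D.Wt fun x => t * φ x := by
  refine ⟨fun x => ?_, fun x => ?_⟩
  · exact (continuous_const.mul continuous_id).continuousAt.comp_upperSemicontinuousAt (h.usc x)
      fun a b hab => mul_le_mul_of_nonneg_left hab ht
  · obtain ⟨B, hB⟩ := h.lb x
    exact ⟨t * B, hB.mono fun y hy => by nlinarith⟩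

theorem Wt.add_cont {φ ψ : D.M → ℝ} (h : D.Wt φ) (hψ : Continuous ψ) : D.Wt fun x => φ x + ψ x := by
  refine ⟨h.usc.add hψ.upperSemicontinuous, fun x => ?_⟩
  obtain ⟨B, hB⟩ := h.lb x
  refine ⟨B - ψ x + 1, ?_⟩
  filter_upwards [hB, hψ.continuousAt.eventually (lt_mem_nhds (sub_one_lt (ψ x)))] with y h1 h2
  linarith

/-- `L2Bd` read in a flat chart. -/
theorem L2Bd.chart {h : D.M → ℂ} {φ : D.M → ℝ} {C : ℝ} (hL : D.L2Bd h φ C) (he : D.IsCh e) {V : Set (Cn n)} (hV : IsOpen V)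
    (hVe : V ⊆ e.target) :
    ∫⁻ w in V, ENNReal.ofReal (‖h (e.symm w)‖ ^ 2 * Real.exp (-φ (e.symm w))) ≤ ENNReal.ofReal C := by
  have h1 : ∀ w ∈ V, D.π ∘ e.symm =ᶠ[𝓝 w] id := fun w hw => by
    filter_upwards [hV.mem_nhds hw] with y hy using he.pi_symm (hVe hy)
  have h2 := hL V e.symm hV (e.continuousOn_symm.mono hVe) (e.symm.injOn.mono hVe)
    fun w hw => (differentiableAt_id.congr_of_eventuallyEq (h1 w hw)).differentiableWithinAt
  refine le_trans (le_of_eq (setLIntegral_congr_fun hV.measurableSet fun w hw => ?_)) h2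
  simp only [(h1 w hw).fderiv_eq, fderiv_id, ContinuousLinearMap.coe_id, LinearMap.det_id, norm_one, one_pow, mul_one]

end RDom

/-! ### mean value inequality -/

section MV

variable {n : ℕ}

theorem mv_rot_int (c : Cn n) (R : ℝ) {a : ℂ} (ha : ‖a‖ = 1) (g : Cn n → ENNReal) :
    ∫⁻ w in ball 0 R, g (c + a • w) = ∫⁻ z in ball c R, g z := by
  have ha0 : a ≠ 0 := by rintro rfl; simp at ha
  have he : MeasurableEmbedding (fun w : Cn n => c + a • w) :=
    ((Homeomorph.smulOfNeZero a ha0).trans (Homeomorph.addLeft c)).measurableEmbedding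
  let L : Cn n →ₗᵢ[ℝ] Cn n :=
    { toFun := fun w => a • w
      map_add' := smul_add a
      map_smul' := fun r w => smul_comm a r w
      norm_map' := fun w => by simp [norm_smul, ha] }
  have hm : MeasurePreserving (fun w : Cn n => c + a • w) volume volume :=
    (measurePreserving_add_left volume c).comp (L.toLinearIsometryEquiv rfl).measurePreserving
  rw [← hm.setLIntegral_comp_preimage_emb he g (ball c R)]
  congr 2
  ext w
  simp [mem_ball, dist_eq_norm, norm_smul, ha]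

theorem mv_circle {f : Cn n → ℂ} {c : Cn n} {R : ℝ} (hf : DifferentiableOn ℂ f (ball c R))
    {w : Cn n} (hw : w ∈ ball (0 : Cn n) R) :
    ENNReal.ofReal (‖f c‖ ^ 2) * ENNReal.ofReal (2 * Real.pi) ≤
      ∫⁻ θ in Ioc 0 (2 * Real.pi), ENNReal.ofReal (‖f (c + circleMap 0 1 θ • w)‖ ^ 2) := by
  have hmem : ∀ ζ : ℂ, ‖ζ‖ ≤ 1 → c + ζ • w ∈ ball c R := fun ζ hζ => by
    have h1 := mem_ball_zero_iff.1 hw
    have h2 : ‖ζ‖ * ‖w‖ ≤ ‖w‖ := mul_le_of_le_one_left (norm_nonneg _) hζ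
    simp only [mem_ball, dist_eq_norm, add_sub_cancel_left, norm_smul]
    linarith
  have hd : DifferentiableOn ℂ (fun ζ : ℂ => f (c + ζ • w) ^ 2) (closure (ball 0 |(1 : ℝ)|)) := by
    rw [abs_one, closure_ball _ one_ne_zero]
    exact (hf.comp (by fun_prop) fun ζ hζ => hmem ζ (mem_closedBall_zero_iff.1 hζ)).pow 2
  have h1 := hd.diffContOnCl.circleAverage
  have hpi : 0 < 2 * Real.pi := by positivity
  have hc : Continuous fun θ : ℝ => f (c + circleMap 0 1 θ • w) :=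
    hf.continuousOn.comp_continuous (by fun_prop) fun θ => hmem _ (by simp)
  have h2 : ‖f c‖ ^ 2 * (2 * Real.pi) ≤
      ∫ θ in Ioc 0 (2 * Real.pi), ‖f (c + circleMap 0 1 θ • w)‖ ^ 2 := by
    rw [Real.circleAverage_def] at h1
    simp only [zero_smul, add_zero] at h1
    rw [← norm_pow, ← h1, norm_smul, Real.norm_of_nonneg (by positivity), mul_comm, ← mul_assoc,
      mul_inv_cancel₀ hpi.ne', one_mul, ← intervalIntegral.integral_of_le hpi.le]
    refine (intervalIntegral.norm_integral_le_integral_norm hpi.le).trans (le_of_eq ?_)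
    simp only [norm_pow]
  rw [← ENNReal.ofReal_mul (by positivity), ← ofReal_integral_eq_lintegral_ofReal]
  · exact ENNReal.ofReal_le_ofReal h2
  · exact ((hc.norm.pow 2).integrableOn_Icc).mono_set Ioc_subset_Icc_self
  · exact Eventually.of_forall fun θ => by positivity

/-- The mean value inequality on a ball of `ℂⁿ`. -/
theorem mv_ball {f : Cn n → ℂ} {c : Cn n} {R : ℝ} (hf : DifferentiableOn ℂ f (ball c R)) :
    ENNReal.ofReal (‖f c‖ ^ 2) * volume (ball (0 : Cn n) R) ≤ ∫⁻ z in ball c R, ENNReal.ofReal (‖f z‖ ^ 2) := by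
  have hpi : 0 < 2 * Real.pi := by positivity
  have hmeas : AEMeasurable (Function.uncurry fun (w : Cn n) (θ : ℝ) =>
      ENNReal.ofReal (‖f (c + circleMap 0 1 θ • w)‖ ^ 2))
      ((volume.restrict (ball (0 : Cn n) R)).prod (volume.restrict (Ioc 0 (2 * Real.pi)))) := by
    rw [Measure.prod_restrict]
    refine ContinuousOn.aemeasurable ?_ (measurableSet_ball.prod measurableSet_Ioc)
    have h1 : ContinuousOn (fun q : Cn n × ℝ => f (c + circleMap 0 1 q.2 • q.1))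
        (ball (0 : Cn n) R ×ˢ Ioc 0 (2 * Real.pi)) := by
      refine hf.continuousOn.comp (Continuous.continuousOn (by fun_prop)) fun q hq => ?_
      have := mem_ball_zero_iff.1 hq.1
      simpa [mem_ball, dist_eq_norm, norm_smul] using this
    exact ENNReal.continuous_ofReal.comp_continuousOn (h1.norm.pow 2)
  have h1 : ∫⁻ _ in ball (0 : Cn n) R, ENNReal.ofReal (‖f c‖ ^ 2) * ENNReal.ofReal (2 * Real.pi) ≤
      ∫⁻ w in ball (0 : Cn n) R, ∫⁻ θ in Ioc 0 (2 * Real.pi),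
        ENNReal.ofReal (‖f (c + circleMap 0 1 θ • w)‖ ^ 2) :=
    setLIntegral_mono' measurableSet_ball fun w hw => mv_circle hf hw
  rw [lintegral_lintegral_swap hmeas] at h1
  have h2 : ∀ θ : ℝ, ∫⁻ w in ball (0 : Cn n) R, ENNReal.ofReal (‖f (c + circleMap 0 1 θ • w)‖ ^ 2) =
      ∫⁻ z in ball c R, ENNReal.ofReal (‖f z‖ ^ 2) := fun θ =>
    mv_rot_int c R (by simp) fun z => ENNReal.ofReal (‖f z‖ ^ 2)
  simp only [h2, setLIntegral_const, Real.volume_Ioc, sub_zero] at h1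
  rw [mul_right_comm] at h1
  exact (ENNReal.mul_le_mul_iff_left (by simpa using Real.pi_pos) ENNReal.ofReal_ne_top).1 h1

theorem finrank_Cn : Module.finrank ℝ (Cn n) = 2 * n := by
  rw [← Module.finrank_mul_finrank ℝ ℂ (Cn n), Complex.finrank_real_complex, finrank_euclideanSpace_fin]

/-- Real form: `‖f c‖² R^{2n} vol(B₁) ≤ b C` if `∫ ‖f‖² e^{-φ} ≤ C` and `e^φ ≤ b` on the ball. -/
theorem mv_weight {f : Cn n → ℂ} {φ : Cn n → ℝ} {c : Cn n} {R b C : ℝ} (hR : 0 < R) (hf : DifferentiableOn ℂ f (ball c R))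
    (hφ : ∀ w ∈ ball c R, Real.exp (φ w) ≤ b) (hC : 0 ≤ C)
    (h : ∫⁻ w in ball c R, ENNReal.ofReal (‖f w‖ ^ 2 * Real.exp (-φ w)) ≤ ENNReal.ofReal C) :
    ‖f c‖ ^ 2 * (R ^ (2 * n) * (volume (ball (0 : Cn n) 1)).toReal) ≤ b * C := by
  have hb : 0 ≤ b := (Real.exp_pos _).le.trans (hφ c (mem_ball_self hR))
  have h1 : ∫⁻ z in ball c R, ENNReal.ofReal (‖f z‖ ^ 2) ≤ ENNReal.ofReal b * ENNReal.ofReal C := by
    refine le_trans ?_ (mul_le_mul_right h _)
    rw [← lintegral_const_mul' _ _ ENNReal.ofReal_ne_top]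
    refine setLIntegral_mono' measurableSet_ball fun w hw => ?_
    rw [← ENNReal.ofReal_mul hb]
    refine ENNReal.ofReal_le_ofReal ?_
    have h2 : 1 ≤ b * Real.exp (-φ w) := by
      rw [Real.exp_neg, ← div_eq_mul_inv, one_le_div (Real.exp_pos _)]
      exact hφ w hw
    nlinarith [sq_nonneg ‖f w‖]
  have h3 := (mv_ball hf).trans h1
  rw [Measure.addHaar_ball_of_pos _ _ hR, finrank_Cn, ← ENNReal.ofReal_toReal (measure_ball_lt_top (x := (0 : Cn n)) (r := 1)).ne,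
    ← ENNReal.ofReal_mul (by positivity), ← ENNReal.ofReal_mul (by positivity), ← ENNReal.ofReal_mul hb,
    ENNReal.ofReal_le_ofReal_iff (by positivity)] at h3
  exact h3

end MV

end Crest.Agent.R269
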