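import Crest.Agent.R269.I.Loc

/-!
# Row 269, block I2: logarithmic poles (owner helper41)
-/

set_option autoImplicit false
set_option linter.unusedSectionVars false
set_option linter.unusedVariables false

noncomputable section

namespace Crest.Agent.R269

open Set Metric Filter Topology MeasureTheory Matrix
open Crest.AlgGeometry.ProjEmb
open scoped InnerProductSpace ContDiff ComplexOrder

/-- `log s - 4 s + 3`: positive near `s = 1/2`, nonpositive for `s ≥ 1`. -/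
def lg (s : ℝ) : ℝ := Real.log s - 4 * s + 3

/-- The profile of the pole: `lg` for small `s`, `0` for `s ≥ 1`; locally equal to `lg` or to `max lg 0`. -/
def gg (s : ℝ) : ℝ := if s ≤ 1 / 2 then lg s else max (lg s) 0

theorem gg_le {s : ℝ} (hs : 0 < s) : gg s ≤ 2 := by
  have h := Real.log_le_sub_one_of_pos hs
  have h1 : lg s ≤ 2 := by
    rw [lg]
    linarith
  rw [gg]
  split_ifs
  · exact h1
  · exact max_le h1 (by norm_num)

theorem gg_eq_zero {s : ℝ} (hs : 1 ≤ s) : gg s = 0 := by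
  have h := Real.log_le_sub_one_of_pos (one_pos.trans_le hs)
  rw [gg, if_neg (by linarith), max_eq_right]
  rw [lg]
  linarith

theorem gg_small {s : ℝ} (hs : 0 < s) (h : s ≤ 1 / 2) : gg s ≤ Real.log s + 3 := by
  rw [gg, if_pos h, lg]
  linarith

theorem gg_lower {s : ℝ} (hs : 1 / 8 ≤ s) : -8 ≤ gg s := by
  rw [gg]
  split_ifs with h
  · have h0 : 0 < s := by linarith
    have h1 := Real.one_sub_inv_le_log_of_pos h0
    have h2 : s⁻¹ ≤ 8 := by
      rw [inv_le_comm₀ h0 (by norm_num)]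
      linarith
    rw [lg]
    linarith
  · exact le_trans (by norm_num) (le_max_right _ _)

theorem contDiffAt_lg {s : ℝ} (hs : 0 < s) : ContDiffAt ℝ 2 lg s :=
  ((Real.contDiffAt_log.2 hs.ne').sub (contDiffAt_const.mul contDiffAt_id)).add contDiffAt_const

theorem continuousAt_lg {s : ℝ} (hs : 0 < s) : ContinuousAt lg s := (contDiffAt_lg hs).continuousAt

/-- `lg (1/2) = 1 - log 2 > 0`. -/
theorem gg_local {s : ℝ} (hs : 0 < s) : gg =ᶠ[𝓝 s] lg ∨ gg =ᶠ[𝓝 s] fun t => max (lg t) 0 := by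
  rcases lt_trichotomy s (1 / 2) with h | h | h
  · left
    filter_upwards [Iio_mem_nhds h] with t ht
    rw [gg, if_pos (le_of_lt ht)]
  · left
    have h1 : 0 < lg s := by
      have h2 := Real.log_two_lt_d9
      rw [lg, h, one_div, Real.log_inv]
      norm_num at h2 ⊢
      linarith
    filter_upwards [(continuousAt_lg hs).eventually (lt_mem_nhds h1)] with t ht
    rw [gg]
    split_ifs
    · rfl
    · exact max_eq_left ht.le
  · right
    filter_upwards [Ioi_mem_nhds h] with t ht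
    rw [gg, if_neg (not_le.2 ht)]

theorem continuousAt_gg {s : ℝ} (hs : 0 < s) : ContinuousAt gg s := by
  rcases gg_local hs with h | h
  · exact (continuousAt_lg hs).congr h.symm
  · exact ContinuousAt.congr ((continuousAt_lg hs).max continuousAt_const) h.symm

variable {n : ℕ}

theorem real_inner_eq_complex_inner_re' (y w : Cn n) : ⟪y, w⟫_ℝ = (⟪y, w⟫_ℂ).re := by
  simp [PiLp.inner_apply, Complex.inner]

/-- `log (‖y‖² + ε)` is psh (`levi_comp_real`, `levi_norm_sq`, Cauchy–Schwarz). -/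
theorem levi_log_add_nonneg {ε : ℝ} (hε : 0 < ε) (y v : Cn n) : 0 ≤ levi (fun x : Cn n => Real.log (‖x‖ ^ 2 + ε)) y v := by
  have hs : 0 < ‖y‖ ^ 2 + ε := by positivity
  have hf : ContDiffAt ℝ 2 (fun x : Cn n => ‖x‖ ^ 2 + ε) y := ((contDiff_norm_sq ℂ).contDiffAt).add contDiffAt_const
  have h1 := levi_comp_real (h := Real.log) (f := fun x : Cn n => ‖x‖ ^ 2 + ε) (x := y) (Real.contDiffAt_log.2 hs.ne') hf v
  have h2 : levi (fun x : Cn n => ‖x‖ ^ 2 + ε) y v = ‖v‖ ^ 2 := by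
    rw [levi_add (contDiff_norm_sq ℂ).contDiffAt contDiffAt_const, levi_norm_sq, levi_const, add_zero]
  have h3 : ∀ w : Cn n, fderiv ℝ (fun x : Cn n => ‖x‖ ^ 2 + ε) y w = 2 * (⟪y, w⟫_ℂ).re := fun w => by
    rw [fderiv_add_const, (hasStrictFDerivAt_norm_sq y).hasFDerivAt.fderiv]
    simp [real_inner_eq_complex_inner_re']
  rw [h1, h2, h3, h3, Real.deriv_log', deriv_inv, inner_smul_right]
  have h4 : ‖⟪y, v⟫_ℂ‖ ^ 2 ≤ ‖y‖ ^ 2 * ‖v‖ ^ 2 := by
    rw [← mul_pow]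
    exact pow_le_pow_left₀ (norm_nonneg _) (norm_inner_le_norm _ _) 2
  rw [Complex.sq_norm, Complex.normSq_apply] at h4
  simp only [Complex.mul_re, Complex.I_re, Complex.I_im, zero_mul, one_mul, zero_sub]
  have h5 : (‖y‖ ^ 2 + ε)⁻¹ * ‖v‖ ^ 2 + -((‖y‖ ^ 2 + ε) ^ 2)⁻¹ *
      (((2 * (⟪y, v⟫_ℂ).re) ^ 2 + (2 * -(⟪y, v⟫_ℂ).im) ^ 2) / 4) =
      ((‖y‖ ^ 2 + ε) * ‖v‖ ^ 2 - ((⟪y, v⟫_ℂ).re * (⟪y, v⟫_ℂ).re + (⟪y, v⟫_ℂ).im * (⟪y, v⟫_ℂ).im)) / (‖y‖ ^ 2 + ε) ^ 2 := by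
    field_simp
    ring
  rw [h5]
  refine div_nonneg ?_ (by positivity)
  nlinarith [mul_nonneg hε.le (sq_nonneg ‖v‖)]

def pole (T : Cn n →L[ℂ] Cn n) (x : Cn n) (ε : ℝ) (w : Cn n) : ℝ := gg (‖T (w - x)‖ ^ 2 + ε)

theorem continuous_pole (T : Cn n →L[ℂ] Cn n) (x : Cn n) {ε : ℝ} (hε : 0 < ε) : Continuous (pole T x ε) := by
  refine continuous_iff_continuousAt.2 fun w => ?_
  exact ContinuousAt.comp (f := fun w => ‖T (w - x)‖ ^ 2 + ε) (continuousAt_gg (by positivity)) (by fun_prop)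

theorem pole_eq_zero {T : Cn n →L[ℂ] Cn n} {x w : Cn n} {ε : ℝ} (hε : 0 < ε) (h : 1 < ‖T (w - x)‖) : pole T x ε w = 0 := by
  exact gg_eq_zero (by nlinarith)

/-- `gg_local`; `levi (lg (‖T (· - x)‖² + ε)) w v ≥ - 4 ‖T v‖²` (`levi_comp_hol`); `vb_of_classical`, `VB.max`, `VB.congr_pt`. -/
theorem vb_pole (T : Cn n →L[ℂ] Cn n) (x : Cn n) {ε : ℝ} (hε : 0 < ε) {P : Cn n → ℝ} {w : Cn n} (hP : ContDiffAt ℝ 2 P w)
    {a lam : ℝ} (ha : 0 ≤ a) (h : ∀ v, lam * ‖v‖ ^ 2 + 4 * a * ‖T v‖ ^ 2 ≤ levi P w v) :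
    VB (fun y => P y + a * pole T x ε y) {w} fun v => lam * ∑ j, ‖v j‖ ^ 2 := by
  have hs : 0 < ‖T (w - x)‖ ^ 2 + ε := by positivity
  have hA : AnalyticAt ℂ (fun y : Cn n => T (y - x)) w := (T.analyticAt _).comp (analyticAt_id.sub analyticAt_const)
  have hd : fderiv ℂ (fun y : Cn n => T (y - x)) w = T :=
    (T.hasFDerivAt.comp w ((hasFDerivAt_id w).sub_const x)).fderiv.trans (by simp)
  have hN : ContDiffAt ℝ 2 (fun y : Cn n => ‖y‖ ^ 2 + ε) (T (w - x)) := ((contDiff_norm_sq ℂ).contDiffAt).add contDiffAt_const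
  have hL : ContDiffAt ℝ 2 (fun y : Cn n => Real.log (‖y‖ ^ 2 + ε)) (T (w - x)) := hN.log hs.ne'
  have hG : ContDiffAt ℝ 2 (fun y : Cn n => lg (‖y‖ ^ 2 + ε)) (T (w - x)) :=
    ContDiffAt.comp (f := fun y : Cn n => ‖y‖ ^ 2 + ε) _ (contDiffAt_lg hs) hN
  have hG' : ContDiffAt ℝ 2 (fun y : Cn n => lg (‖T (y - x)‖ ^ 2 + ε)) w :=
    hG.comp w (hA.contDiffAt.restrict_scalars ℝ)
  have h1 : ∀ v, -4 * ‖T v‖ ^ 2 ≤ levi (fun y : Cn n => lg (‖T (y - x)‖ ^ 2 + ε)) w v := fun v => by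
    rw [levi_comp_hol (f := fun y : Cn n => lg (‖y‖ ^ 2 + ε)) (φ := fun y : Cn n => T (y - x)) hG hA, hd]
    simp only [lg]
    rw [levi_add (hL.sub (contDiffAt_const.mul hN)) contDiffAt_const, levi_sub hL (contDiffAt_const.mul hN),
      levi_const_mul hN, levi_add (contDiff_norm_sq ℂ).contDiffAt contDiffAt_const, levi_norm_sq, levi_const, levi_const]
    linarith [levi_log_add_nonneg hε (T (w - x)) (T v)]
  have h2 : VB (fun y => P y + a * lg (‖T (y - x)‖ ^ 2 + ε)) {w} fun v => lam * ∑ j, ‖v j‖ ^ 2 := by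
    refine vb_of_classical fun w' hw' => ?_
    rw [mem_singleton_iff.1 hw']
    refine ⟨hP.add (contDiffAt_const.mul hG'), fun v => ?_⟩
    rw [Finset.mul_sum]
    refine Finset.sum_le_sum fun j _ => ?_
    rw [levi_add hP (contDiffAt_const.mul hG'), levi_const_mul hG']
    nlinarith [h (v j), mul_le_mul_of_nonneg_left (h1 (v j)) ha]
  have h3 : VB P {w} fun v => lam * ∑ j, ‖v j‖ ^ 2 := by
    refine vb_of_classical fun w' hw' => ?_
    rw [mem_singleton_iff.1 hw']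
    refine ⟨hP, fun v => ?_⟩
    rw [Finset.mul_sum]
    refine Finset.sum_le_sum fun j _ => ?_
    nlinarith [h (v j), mul_nonneg ha (sq_nonneg ‖T (v j)‖)]
  have ht : Tendsto (fun y : Cn n => ‖T (y - x)‖ ^ 2 + ε) (𝓝 w) (𝓝 (‖T (w - x)‖ ^ 2 + ε)) :=
    Continuous.tendsto (by fun_prop) w
  rcases gg_local hs with hg | hg
  · refine h2.congr_pt ?_
    filter_upwards [ht.eventually hg] with y hy
    rw [pole, hy]
  · refine (h2.max h3).congr_pt ?_
    filter_upwards [ht.eventually hg] with y hy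
    rw [pole, hy, mul_max_of_nonneg _ _ ha, mul_zero, ← max_add_add_left, add_zero]

end Crest.Agent.R269
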